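import Mathlib

/-!
P125: definitions for the proof that nontrivial Markov type implies superreflexivity
(see PROOF.md in this folder).
-/

namespace Vale.Agent.P125

open Finset

/-- The Markov type inequality with exponent `p` and constant `K` for a distance given by a
function `N` of differences, over all finite stationary reversible chains. -/
def MTIneq {V : Type*} [AddCommGroup V] (N : V → ℝ) (p K : ℝ) : Prop :=
  ∀ (S : Type) (_ : Fintype S) (_ : DecidableEq S) (π : S → ℝ) (P : Matrix S S ℝ),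
    (∀ i, 0 ≤ π i) → (∑ i, π i) = 1 → (∀ i j, 0 ≤ P i j) → (∀ i, ∑ j, P i j = 1) →
    (∀ i j, π i * P i j = π j * P j i) →
    ∀ (f : S → V) (t : ℕ), 1 ≤ t →
      ∑ i, ∑ j, π i * (P ^ t) i j * N (f j - f i) ^ p ≤
        K ^ p * t * ∑ i, ∑ j, π i * P i j * N (f j - f i) ^ p

/-- A spreading seminorm on finitely supported sequences in which prefix sums are bounded by `C`. -/
structure IsSpreadNorm (N : Seminorm ℝ (ℕ →₀ ℝ)) (C : ℝ) : Prop where
  one_le : 1 ≤ C
  single_le : ∀ i, N (Finsupp.single i 1) ≤ 1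
  spread : ∀ φ : ℕ → ℕ, StrictMono φ → ∀ c, N (c.mapDomain φ) = N c
  prefix_le : ∀ (c : ℕ →₀ ℝ) (j : ℕ), |∑ i ∈ Finset.range j, c i| ≤ C * N c

/-- The alternating pattern: `r` periods, each `m` plus ones followed by `m` minus ones. -/
noncomputable def pat (m r : ℕ) : ℕ →₀ ℤ :=
  ∑ i ∈ Finset.range (2 * m * r), Finsupp.single i (if i / m % 2 = 0 then (1 : ℤ) else -1)

/-- Cast an integer vector to a real one. -/
noncomputable def toR (c : ℕ →₀ ℤ) : ℕ →₀ ℝ := c.mapRange (fun z : ℤ => (z : ℝ)) Int.cast_zero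

section Renorm

variable {E : Type*} [NormedAddCommGroup E] [NormedSpace ℝ E]

/-- A finite tree of convex combinations. -/
inductive JTree (E : Type*) where
  | leaf (x : E) : JTree E
  | node (x : E) (n : ℕ) (w : Fin n → ℝ) (c : Fin n → JTree E) : JTree E

/-- The root value. -/
def JTree.val {E : Type*} : JTree E → E
  | .leaf x => x
  | .node x _ _ _ => x

/-- All values in the unit ball, each node is a barycentre of its children, at mean distance
at least `ε` from them. -/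
def IsJump (ε : ℝ) : JTree E → Prop
  | .leaf x => ‖x‖ ≤ 1
  | .node x n w c => ‖x‖ ≤ 1 ∧ (∀ i, 0 ≤ w i) ∧ (∑ i, w i) = 1 ∧ (∑ i, w i • (c i).val) = x ∧
      ε ≤ (∑ i, w i * ‖(c i).val - x‖) ∧ ∀ i, IsJump ε (c i)

/-- Probability that a random branch has at least `L` steps. -/
noncomputable def tailP {E : Type*} : ℕ → JTree E → ℝ
  | 0, _ => 1
  | _ + 1, .leaf _ => 0
  | L + 1, .node _ _ w c => ∑ i, w i * tailP L (c i)

/-- Jump trees have boundedly many steps. -/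
def FewJumps (E : Type*) [NormedAddCommGroup E] [NormedSpace ℝ E] : Prop :=
  ∀ ε : ℝ, 0 < ε → ∃ L : ℕ, ∀ T : JTree E, IsJump ε T → tailP L T ≤ 1 / 2

/-- Equivalence of a seminorm with the norm. -/
def EquivNorm (N : Seminorm ℝ E) : Prop :=
  ∃ a b : ℝ, 0 < a ∧ 0 < b ∧ ∀ x, a * ‖x‖ ≤ N x ∧ N x ≤ b * ‖x‖

/-- Uniform convexity of a (semi)norm. -/
def UnifConvex (N : Seminorm ℝ E) : Prop :=
  ∀ ε : ℝ, 0 < ε → ∃ δ : ℝ, 0 < δ ∧ ∀ x y : E, N x ≤ 1 → N y ≤ 1 → ε ≤ N (x - y) →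
    N ((1 / 2 : ℝ) • (x + y)) ≤ 1 - δ

/-- Uniform smoothness of a (semi)norm: the modulus of smoothness is `o(τ)`. -/
def UnifSmooth (N : Seminorm ℝ E) : Prop :=
  ∀ ε : ℝ, 0 < ε → ∃ τ₀ : ℝ, 0 < τ₀ ∧ ∀ τ : ℝ, 0 < τ → τ ≤ τ₀ → ∀ x y : E,
    N x = 1 → N y = 1 → (N (x + τ • y) + N (x - τ • y)) / 2 - 1 ≤ ε * τ

/-- For each `L`, two finite families of vectors in `ℓ_p(w; V)` with functionals, such that the
two step values of the resulting matrices differ by `γ`. -/
def HasWitness (V : Type*) [NormedAddCommGroup V] [NormedSpace ℝ V] (p γ : ℝ) : Prop :=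
  ∀ L : ℕ, ∃ (n : ℕ) (w : Fin n → ℝ) (v : Bool → ℕ → Fin n → V)
    (φ : Bool → ℕ → ((Fin n → V) →ₗ[ℝ] ℝ)),
    (∀ k, 0 ≤ w k) ∧ (∑ k, w k) = 1 ∧ (∀ b i k, ‖v b i k‖ ≤ 1) ∧
    (∀ b j u, |φ b j u| ≤ (∑ k, w k * ‖u k‖ ^ p) ^ (1 / p)) ∧
    ∀ i j : ℕ, i < j → j < L →
      γ ≤ |(φ true j (v true i) - φ true i (v true j)) -
          (φ false j (v false i) - φ false i (v false j))|

end Renorm

end Vale.Agent.P125
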