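import Mathlib
import Vale.Agent.P125.Defs

/-!
P125: antisymmetric integer fields on a labelled reversible graph become gradients on the product
with a large box, so the Markov type inequality bounds their path sums.
-/

namespace Vale.Agent.P125

open Finset

section Toolkit

lemma toR_add (a b : ℕ →₀ ℤ) : toR (a + b) = toR a + toR b := by
  ext i; simp [toR]

lemma toR_apply (a : ℕ →₀ ℤ) (i : ℕ) : toR a i = (a i : ℝ) := by
  simp [toR]

lemma toR_zero : toR 0 = 0 := by
  ext i; simp [toR]

lemma toR_neg (a : ℕ →₀ ℤ) : toR (-a) = -toR a := by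
  ext i; simp [toR]

lemma toR_sub (a b : ℕ →₀ ℤ) : toR (a - b) = toR a - toR b := by
  ext i; simp [toR]

end Toolkit

variable {V Ed : Type} [Fintype V] [DecidableEq V] [Fintype Ed] [DecidableEq Ed]

/-- The stationary weight of a vertex. -/
noncomputable def vW (src : Ed → V) (q : Ed → ℝ) (x : V) : ℝ :=
  ∑ e ∈ univ.filter (fun e => src e = x), q e

/-- Expected value of `φ` of the accumulated field after `k` steps from `x`. -/
noncomputable def acc (src : Ed → V) (rev : Ed → Ed) (q : Ed → ℝ) (g : Ed → (ℕ →₀ ℤ))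
    (φ : (ℕ →₀ ℤ) → ℝ) : ℕ → V → (ℕ →₀ ℤ) → ℝ
  | 0, _, s => φ s
  | k + 1, x, s => ∑ e ∈ univ.filter (fun e => src e = x),
      q e / vW src q x * acc src rev q g φ k (src (rev e)) (s + g e)

/-- A point of the box, read as an integer vector. -/
noncomputable def boxVec (U : Finset ℕ) (M : ℕ) (v : U → Fin (2 * M + 1)) : ℕ →₀ ℤ :=
  ∑ u : U, Finsupp.single (u : ℕ) ((v u : ℤ) - M)

lemma boxVec_apply (U : Finset ℕ) (M : ℕ) (v : U → Fin (2 * M + 1)) (u : U) :
    boxVec U M v u = (v u : ℤ) - M := by
  classical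
  simp only [boxVec, Finsupp.finsetSum_apply, Finsupp.single_apply]
  rw [Finset.sum_eq_single u]
  · simp
  · intro b _ hb
    rw [if_neg]
    exact fun h => hb (Subtype.ext h)
  · simp

lemma boxVec_apply_notMem (U : Finset ℕ) (M : ℕ) (v : U → Fin (2 * M + 1)) {i : ℕ}
    (hi : i ∉ U) : boxVec U M v i = 0 := by
  classical
  simp only [boxVec, Finsupp.finsetSum_apply, Finsupp.single_apply]
  refine Finset.sum_eq_zero (fun b _ => if_neg ?_)
  exact fun h => hi (h ▸ b.2)

variable (src : Ed → V) (rev : Ed → Ed) (q : Ed → ℝ) (g : Ed → (ℕ →₀ ℤ)) (U : Finset ℕ) (M : ℕ)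

/-- The field moves the box point `v` inside the box. -/
def Fits (e : Ed) (v : U → Fin (2 * M + 1)) : Prop :=
  ∀ u : U, 0 ≤ (v u : ℤ) + g e u ∧ (v u : ℤ) + g e u ≤ 2 * M

open Classical in
/-- One step of the lifted chain along the edge `e`. -/
noncomputable def liftStep (e : Ed) (z : V × (U → Fin (2 * M + 1))) :
    V × (U → Fin (2 * M + 1)) :=
  if h : Fits g U M e z.2 then
    (src (rev e), fun u => ⟨((z.2 u : ℤ) + g e u).toNat, by have := h u; omega⟩)
  else z

/-- The lifted transition matrix. -/
noncomputable def liftP : Matrix (V × (U → Fin (2 * M + 1))) (V × (U → Fin (2 * M + 1))) ℝ :=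
  fun z z' => ∑ e ∈ univ.filter (fun e => src e = z.1),
    if liftStep src rev g U M e z = z' then q e / vW src q z.1 else 0

lemma liftP_mulVec (z : V × (U → Fin (2 * M + 1)))
    (h : V × (U → Fin (2 * M + 1)) → ℝ) :
    ∑ z', liftP src rev q g U M z z' * h z' =
      ∑ e ∈ univ.filter (fun e => src e = z.1),
        q e / vW src q z.1 * h (liftStep src rev g U M e z) := by
  classical
  simp only [liftP, Finset.sum_mul]
  rw [Finset.sum_comm]
  refine Finset.sum_congr rfl (fun e _ => ?_)
  simp [ite_mul]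

lemma liftStep_vec (hU : ∀ e, ∀ i ∉ U, g e i = 0) (e : Ed) (z : V × (U → Fin (2 * M + 1)))
    (h : Fits g U M e z.2) :
    boxVec U M (liftStep src rev g U M e z).2 = boxVec U M z.2 + g e := by
  classical
  ext i
  simp only [liftStep, dif_pos h, Finsupp.add_apply]
  by_cases hi : i ∈ U
  · rw [boxVec_apply U M _ ⟨i, hi⟩, boxVec_apply U M _ ⟨i, hi⟩]
    have hh := h ⟨i, hi⟩
    simp only at hh ⊢
    omega
  · rw [boxVec_apply_notMem U M _ hi, boxVec_apply_notMem U M _ hi, hU e i hi, add_zero]

lemma liftStep_rev (hrev : ∀ e, rev (rev e) = e) (hg : ∀ e, g (rev e) = -g e) (e : Ed)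
    (z : V × (U → Fin (2 * M + 1))) (hs : src e = z.1) (h : Fits g U M e z.2) :
    Fits g U M (rev e) (liftStep src rev g U M e z).2 ∧
      liftStep src rev g U M (rev e) (liftStep src rev g U M e z) = z := by
  classical
  have h' : Fits g U M (rev e) (liftStep src rev g U M e z).2 := by
    intro u
    have h1 := h u
    have h2 := (z.2 u).isLt
    simp only [liftStep, dif_pos h, hg, Finsupp.neg_apply]
    omega
  refine ⟨h', ?_⟩
  conv_lhs => rw [liftStep, dif_pos h']
  refine Prod.ext ?_ (funext fun u => Fin.ext ?_)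
  · simp [hrev, hs]
  · have h1 := h u
    simp only [liftStep, dif_pos h, hg, Finsupp.neg_apply]
    omega

lemma liftP_balance (hrev : ∀ e, rev (rev e) = e) (hq : ∀ e, q (rev e) = q e)
    (hg : ∀ e, g (rev e) = -g e) (hπ : ∀ x, 0 < vW src q x)
    (z z' : V × (U → Fin (2 * M + 1))) :
    vW src q z.1 * liftP src rev q g U M z z' = vW src q z'.1 * liftP src rev q g U M z' z := by
  classical
  by_cases hzz : z = z'
  · rw [hzz]
  have key : ∀ a b : V × (U → Fin (2 * M + 1)), vW src q a.1 * liftP src rev q g U M a b =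
      ∑ e ∈ univ.filter (fun e => src e = a.1 ∧ liftStep src rev g U M e a = b), q e := by
    intro a b
    rw [liftP, Finset.mul_sum, ← Finset.filter_filter, Finset.sum_filter
      (p := fun e => liftStep src rev g U M e a = b)]
    refine Finset.sum_congr rfl (fun e _ => ?_)
    split
    · field_simp [(hπ a.1).ne']
    · simp
  have fwd : ∀ a b : V × (U → Fin (2 * M + 1)), a ≠ b → ∀ e : Ed,
      (src e = a.1 ∧ liftStep src rev g U M e a = b) →
      (src (rev e) = b.1 ∧ liftStep src rev g U M (rev e) b = a) := by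
    intro a b hab e he
    by_cases hf : Fits g U M e a.2
    · obtain ⟨-, h2⟩ := liftStep_rev src rev g U M hrev hg e a he.1 hf
      rw [he.2] at h2
      refine ⟨?_, h2⟩
      rw [← he.2, liftStep, dif_pos hf]
    · exact absurd (by rw [← he.2, liftStep, dif_neg hf]) hab
  rw [key, key]
  refine Finset.sum_bij' (fun e _ => rev e) (fun e _ => rev e) ?_ ?_ ?_ ?_ ?_
  · intro e he
    simp only [mem_filter, mem_univ, true_and] at he ⊢
    exact fwd z z' hzz e he
  · intro e he
    simp only [mem_filter, mem_univ, true_and] at he ⊢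
    exact fwd z' z (Ne.symm hzz) e he
  · intro e _; exact hrev e
  · intro e _; exact hrev e
  · intro e _; exact (hq e).symm

lemma lift_pow_deep (hU : ∀ e, ∀ i ∉ U, g e i = 0) (G : ℕ)
    (hG : ∀ e i, |g e i| ≤ (G : ℤ)) (φ : (ℕ →₀ ℤ) → ℝ) (o : ℕ →₀ ℤ) :
    ∀ (k : ℕ) (z : V × (U → Fin (2 * M + 1))),
      (∀ u : U, (k * G : ℤ) ≤ (z.2 u : ℤ) ∧ (z.2 u : ℤ) + k * G ≤ 2 * M) →
      ∑ z', (liftP src rev q g U M ^ k) z z' * φ (boxVec U M z'.2 - o) =
        acc src rev q g φ k z.1 (boxVec U M z.2 - o) := by
  classical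
  intro k
  induction k with
  | zero =>
    intro z _
    simp [acc, Matrix.one_apply, ite_mul]
  | succ k ih =>
    intro z hz
    have hfit : ∀ e, Fits g U M e z.2 := by
      intro e u
      have h1 := hz u
      have h2 := abs_le.1 (hG e u)
      push_cast at h1
      have h3 : (0 : ℤ) ≤ k * G := by positivity
      constructor <;> nlinarith
    have : ∀ z', (liftP src rev q g U M ^ (k + 1)) z z' =
        ∑ z1, liftP src rev q g U M z z1 * (liftP src rev q g U M ^ k) z1 z' := by
      intro z'; rw [pow_succ', Matrix.mul_apply]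
    simp only [this, Finset.sum_mul]
    rw [Finset.sum_comm]
    simp only [mul_assoc, ← Finset.mul_sum]
    rw [liftP_mulVec, acc]
    refine Finset.sum_congr rfl (fun e _ => ?_)
    congr 1
    have hv := liftStep_vec src rev g U M hU e z (hfit e)
    rw [ih, hv]
    · rw [show (liftStep src rev g U M e z).1 = src (rev e) by rw [liftStep, dif_pos (hfit e)]]
      congr 1
      abel
    · intro u
      have h1 := hz u
      have h2 := abs_le.1 (hG e u)
      have h3 := hfit e u
      simp only [liftStep, dif_pos (hfit e)]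
      push_cast at h1
      constructor <;> (rw [Int.toNat_of_nonneg h3.1]; nlinarith)

lemma card_deep (r : ℕ) :
    ((2 * M + 1 : ℝ)) ^ U.card - U.card * (2 * r) * (2 * M + 1 : ℝ) ^ (U.card - 1) ≤
      ((univ.filter (fun v : U → Fin (2 * M + 1) =>
        ∀ u : U, r ≤ (v u : ℕ) ∧ (v u : ℕ) + r ≤ 2 * M)).card : ℝ) := by
  classical
  set b : Finset (Fin (2 * M + 1)) :=
    univ.filter (fun a => r ≤ (a : ℕ) ∧ (a : ℕ) + r ≤ 2 * M) with hb
  set bad : U → Finset (U → Fin (2 * M + 1)) :=
    fun u => univ.filter (fun v => ¬ (r ≤ (v u : ℕ) ∧ (v u : ℕ) + r ≤ 2 * M)) with hbad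
  have hbc : bᶜ.card ≤ 2 * r := by
    have : bᶜ ⊆ (univ.filter (fun a : Fin (2 * M + 1) => (a : ℕ) < r)) ∪
        (univ.filter (fun a : Fin (2 * M + 1) => 2 * M < (a : ℕ) + r)) := by
      intro a ha
      simp only [hb, compl_filter, mem_filter, mem_univ, true_and, mem_union] at ha ⊢
      omega
    refine (card_le_card this).trans ((card_union_le _ _).trans ?_)
    have h1 : (univ.filter (fun a : Fin (2 * M + 1) => (a : ℕ) < r)).card ≤ r := by
      refine (card_le_card_of_injOn (fun a : Fin (2 * M + 1) => (a : ℕ))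
        (t := range r) ?_ ?_).trans (by simp)
      · intro a ha; simpa using ha
      · exact fun a _ b _ h => Fin.ext h
    have h2 : (univ.filter (fun a : Fin (2 * M + 1) => 2 * M < (a : ℕ) + r)).card ≤ r := by
      refine (card_le_card_of_injOn (fun a : Fin (2 * M + 1) => 2 * M - (a : ℕ))
        (t := range r) ?_ ?_).trans (by simp)
      · intro a ha
        simp only [coe_filter, mem_univ, true_and, Set.mem_setOf_eq] at ha
        have := a.isLt
        simp; omega
      · intro a _ c _ h
        have := a.isLt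
        have := c.isLt
        exact Fin.ext (by simp only at h; omega)
    omega
  have hsingle : ∀ u : U, ((bad u).card : ℝ) ≤ 2 * r * (2 * M + 1 : ℝ) ^ (U.card - 1) := by
    intro u
    have hle : (bad u).card ≤ bᶜ.card * (2 * M + 1) ^ (U.card - 1) := by
      have : bad u ⊆ Fintype.piFinset (fun w : U => if w = u then bᶜ else univ) := by
        intro v hv
        simp only [hbad, mem_filter, mem_univ, true_and] at hv
        rw [Fintype.mem_piFinset]
        intro w
        split
        · next h => subst h; simpa [hb] using hv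
        · simp
      refine (card_le_card this).trans (le_of_eq ?_)
      rw [Fintype.card_piFinset, ← Finset.mul_prod_erase univ _ (mem_univ u)]
      simp only [if_pos]
      congr 1
      rw [Finset.prod_eq_pow_card (b := 2 * M + 1)]
      · simp
      · intro w hw
        simp [(mem_erase.1 hw).1]
    calc ((bad u).card : ℝ) ≤ ((bᶜ.card * (2 * M + 1) ^ (U.card - 1) : ℕ) : ℝ) := by
          exact_mod_cast hle
      _ ≤ 2 * r * (2 * M + 1 : ℝ) ^ (U.card - 1) := by
          push_cast
          gcongr
          exact_mod_cast hbc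
  have hunion : (univ : Finset (U → Fin (2 * M + 1))) ⊆
      univ.filter (fun v => ∀ u : U, r ≤ (v u : ℕ) ∧ (v u : ℕ) + r ≤ 2 * M) ∪
        univ.biUnion bad := by
    intro v _
    by_cases hv : ∀ u : U, r ≤ (v u : ℕ) ∧ (v u : ℕ) + r ≤ 2 * M
    · exact mem_union_left _ (by simpa using hv)
    · push_neg at hv
      obtain ⟨u, hu⟩ := hv
      refine mem_union_right _ (mem_biUnion.2 ⟨u, mem_univ _, ?_⟩)
      simpa [hbad] using hu
  have h1 := (card_le_card hunion).trans ((card_union_le _ _).trans
    (Nat.add_le_add_left card_biUnion_le _))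
  have h2 : ((Fintype.card (U → Fin (2 * M + 1)) : ℕ) : ℝ) = (2 * M + 1 : ℝ) ^ U.card := by
    simp
  have h3 : (∑ u : U, ((bad u).card : ℝ)) ≤
      U.card * (2 * r * (2 * M + 1 : ℝ) ^ (U.card - 1)) := by
    refine (Finset.sum_le_sum (fun u _ => hsingle u)).trans (le_of_eq ?_)
    simp
  have h1' := (Nat.cast_le (α := ℝ)).2 h1
  push_cast [card_univ] at h1' h2 ⊢
  linarith

omit src rev q g U M in
theorem box_lift (src : Ed → V) (rev : Ed → Ed) (q : Ed → ℝ) (g : Ed → (ℕ →₀ ℤ))
    (hrev : ∀ e, rev (rev e) = e) (hq0 : ∀ e, 0 ≤ q e) (hq : ∀ e, q (rev e) = q e)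
    (hq1 : (∑ e, q e) = 1) (hg : ∀ e, g (rev e) = -g e) (hπ : ∀ x, 0 < vW src q x)
    (N : Seminorm ℝ (ℕ →₀ ℝ)) (p K : ℝ) (hp : 0 < p) (hK : 0 ≤ K)
    (hMT : MTIneq (fun c => N c) p K) (n : ℕ) (hn : 1 ≤ n) :
    ∑ x, vW src q x * acc src rev q g (fun s => N (toR s) ^ p) n x 0 ≤
      2 * (K ^ p * n * ∑ e, q e * N (toR (g e)) ^ p) := by
  classical
  set U : Finset ℕ := univ.biUnion (fun e => (g e).support) with hUdef
  have hU : ∀ e, ∀ i ∉ U, g e i = 0 := by
    intro e i hi
    by_contra h
    exact hi (mem_biUnion.2 ⟨e, mem_univ _, Finsupp.mem_support_iff.2 h⟩)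
  set G : ℕ := ∑ e, ∑ i ∈ (g e).support, (g e i).natAbs with hGdef
  have hG : ∀ e i, |g e i| ≤ (G : ℤ) := by
    intro e i
    by_cases hi : i ∈ (g e).support
    · rw [Int.abs_eq_natAbs]
      exact_mod_cast (Finset.single_le_sum (fun j _ => Nat.zero_le _) hi).trans
        (Finset.single_le_sum (f := fun e => ∑ i ∈ (g e).support, (g e i).natAbs)
          (fun _ _ => Nat.zero_le _) (mem_univ e))
    · simp [Finsupp.notMem_support_iff.1 hi]
  set M : ℕ := 2 * U.card * (n * G) + 1 with hMdef
  set Z := V × (U → Fin (2 * M + 1))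
  set box : ℝ := (2 * M + 1 : ℝ) ^ U.card with hbox
  have hbox0 : 0 < box := by positivity
  set P := liftP src rev q g U M with hP
  set π' : Z → ℝ := fun z => vW src q z.1 / box with hπ'
  set f : Z → (ℕ →₀ ℝ) := fun z => toR (boxVec U M z.2) with hf
  have hsum1 : (∑ x, vW src q x) = 1 := by
    rw [← hq1]
    exact Finset.sum_fiberwise univ src q
  have hcard : (Fintype.card (U → Fin (2 * M + 1)) : ℝ) = box := by simp [hbox]
  have hPsum : ∀ z, ∑ z', P z z' = 1 := by
    intro z
    have := liftP_mulVec src rev q g U M z (fun _ => 1)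
    simp only [mul_one] at this
    rw [hP, this, ← Finset.sum_div]
    exact div_self (hπ z.1).ne'
  have hP0 : ∀ z z', 0 ≤ P z z' := by
    intro z z'
    refine Finset.sum_nonneg (fun e _ => ?_)
    split
    · exact div_nonneg (hq0 e) (hπ _).le
    · exact le_rfl
  have hMT' := hMT Z inferInstance inferInstance π' P
    (fun z => div_nonneg (hπ _).le hbox0.le)
    (by
      simp only [hπ']
      simp only [Z, Fintype.sum_prod_type, Finset.sum_const, card_univ, nsmul_eq_mul, hcard]
      rw [← Finset.mul_sum, ← Finset.sum_div, hsum1]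
      field_simp)
    hP0 hPsum
    (fun z z' => by
      simp only [hπ', hP]
      rw [div_mul_eq_mul_div, div_mul_eq_mul_div,
        liftP_balance src rev q g U M hrev hq hg hπ z z'])
    f n hn
  have hnn : ∀ s, 0 ≤ N s ^ p := fun s => Real.rpow_nonneg (apply_nonneg N s) p
  have hRHS : ∑ z, ∑ z', π' z * P z z' * N (f z' - f z) ^ p ≤
      ∑ e, q e * N (toR (g e)) ^ p := by
    have h1 : ∀ z, ∑ z', π' z * P z z' * N (f z' - f z) ^ p ≤
        (∑ e ∈ univ.filter (fun e => src e = z.1), q e * N (toR (g e)) ^ p) / box := by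
      intro z
      simp only [mul_assoc, ← Finset.mul_sum]
      rw [hP, liftP_mulVec, Finset.mul_sum, Finset.sum_div]
      refine Finset.sum_le_sum (fun e _ => ?_)
      by_cases hfit : Fits g U M e z.2
      · simp only [hf, ← toR_sub, liftStep_vec src rev g U M hU e z hfit, add_sub_cancel_left]
        simp only [hπ']
        refine le_of_eq ?_
        field_simp [(hπ z.1).ne']
      · have : f (liftStep src rev g U M e z) - f z = 0 := by
          rw [liftStep, dif_neg hfit]; simp
        rw [this, map_zero, Real.zero_rpow hp.ne', mul_zero, mul_zero]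
        exact div_nonneg (mul_nonneg (hq0 e) (hnn _)) hbox0.le
    refine (Finset.sum_le_sum (fun z _ => h1 z)).trans (le_of_eq ?_)
    simp only [Z, Fintype.sum_prod_type, Finset.sum_const, card_univ, nsmul_eq_mul, hcard]
    rw [← Finset.mul_sum, ← Finset.sum_div, Finset.sum_fiberwise univ src
      (fun e => q e * N (toR (g e)) ^ p)]
    field_simp
  set deep := univ.filter (fun v : U → Fin (2 * M + 1) =>
    ∀ u : U, n * G ≤ (v u : ℕ) ∧ (v u : ℕ) + n * G ≤ 2 * M) with hdeep
  set A := ∑ x, vW src q x * acc src rev q g (fun s => N (toR s) ^ p) n x 0 with hA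
  have hLHS : (deep.card : ℝ) * A / box ≤
      ∑ z, ∑ z', π' z * (P ^ n) z z' * N (f z' - f z) ^ p := by
    have hPn : ∀ z z', 0 ≤ (P ^ n) z z' := by
      have : ∀ (k : ℕ) z z', 0 ≤ (P ^ k) z z' := by
        intro k
        induction k with
        | zero => intro z z'; simp [Matrix.one_apply]; split <;> norm_num
        | succ k ih =>
          intro z z'
          rw [pow_succ', Matrix.mul_apply]
          exact Finset.sum_nonneg (fun w _ => mul_nonneg (hP0 _ _) (ih w z'))
      exact this n
    have h1 : ∀ x, ∀ v ∈ deep, ∑ z', π' (x, v) * (P ^ n) (x, v) z' * N (f z' - f (x, v)) ^ p =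
        vW src q x / box * acc src rev q g (fun s => N (toR s) ^ p) n x 0 := by
      intro x v hv
      simp only [mul_assoc, ← Finset.mul_sum]
      congr 1
      have h2 := lift_pow_deep src rev q g U M hU G hG (fun s => N (toR s) ^ p)
        (boxVec U M v) n (x, v) ?_
      · simpa only [sub_self, hf, toR_sub] using h2
      · intro u
        simp only [hdeep, mem_filter, mem_univ, true_and] at hv
        have := hv u
        constructor
        · exact_mod_cast this.1
        · exact_mod_cast this.2
    simp only [Z, Fintype.sum_prod_type]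
    calc (deep.card : ℝ) * A / box
        = ∑ x, ∑ v ∈ deep, vW src q x / box *
            acc src rev q g (fun s => N (toR s) ^ p) n x 0 := by
          rw [hA, Finset.mul_sum, Finset.sum_div]
          refine Finset.sum_congr rfl (fun x _ => ?_)
          rw [Finset.sum_const, nsmul_eq_mul]
          ring
      _ ≤ _ := by
          refine Finset.sum_le_sum (fun x _ => ?_)
          rw [← Finset.sum_congr rfl (fun v hv => h1 x v hv)]
          refine (Finset.sum_le_univ_sum_of_nonneg (s := deep) (fun v => ?_)).trans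
            (le_of_eq ?_)
          · exact Finset.sum_nonneg (fun z' _ => mul_nonneg
              (mul_nonneg (div_nonneg (hπ _).le hbox0.le) (hPn _ _)) (hnn _))
          · simp only [Fintype.sum_prod_type]
  have hA0 : 0 ≤ A := by
    have : ∀ k x s, 0 ≤ acc src rev q g (fun s => N (toR s) ^ p) k x s := by
      intro k
      induction k with
      | zero => intro x s; exact hnn _
      | succ k ih =>
        intro x s
        exact Finset.sum_nonneg (fun e _ => mul_nonneg (div_nonneg (hq0 e) (hπ x).le) (ih _ _))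
    exact Finset.sum_nonneg (fun x _ => mul_nonneg (hπ x).le (this _ _ _))
  have hhalf : 1 / 2 ≤ (deep.card : ℝ) / box := by
    rw [le_div_iff₀ hbox0]
    refine le_trans ?_ (card_deep U M (n * G))
    rcases Nat.eq_zero_or_pos U.card with h0 | h0
    · simp [hbox, h0]; norm_num
    · have he : box = (2 * M + 1 : ℝ) ^ (U.card - 1) * (2 * M + 1) := by
        rw [hbox, ← pow_succ, Nat.sub_add_cancel h0]
      have hM' : (U.card : ℝ) * (2 * (n * G : ℕ)) * 2 ≤ 2 * M + 1 := by
        exact_mod_cast (by rw [hMdef]; nlinarith : U.card * (2 * (n * G)) * 2 ≤ 2 * M + 1)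
      have hx : 0 ≤ (2 * M + 1 : ℝ) ^ (U.card - 1) := by positivity
      rw [← hbox]
      nlinarith [mul_le_mul_of_nonneg_left hM' hx]
  have hfinal : A / 2 ≤ K ^ p * n * ∑ e, q e * N (toR (g e)) ^ p := by
    calc A / 2 = 1 / 2 * A := by ring
      _ ≤ (deep.card : ℝ) / box * A := mul_le_mul_of_nonneg_right hhalf hA0
      _ = (deep.card : ℝ) * A / box := by ring
      _ ≤ _ := hLHS
      _ ≤ K ^ p * n * ∑ z, ∑ z', π' z * P z z' * N (f z' - f z) ^ p := hMT'
      _ ≤ _ := mul_le_mul_of_nonneg_left hRHS
          (mul_nonneg (Real.rpow_nonneg hK p) (Nat.cast_nonneg n))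
  linarith

end Vale.Agent.P125
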