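import Mathlib
import Vale.Agent.P125.Defs

/-!
P125: the labelled chain on tuples. An edge label has a tuple `w` read as `2 * (R + 2)` blocks
of length `B = D * m`, two shifts and a parity `c` (the source is made of blocks of parity `c`).
-/

namespace Vale.Agent.P125

open Finset

/-- Parity as a number. -/
def par (c : Bool) : ℕ := if c then 1 else 0

/-- Index in `w` of the `i`th entry of the state with shift `a` and parity `c`. -/
def stIdx (B m : ℕ) (a : ℕ) (c : Bool) (i : ℕ) : ℕ :=
  (2 * ((a * m + i) / B) + par c) * B + (a * m + i) % B

/-- The antisymmetric field of a label: `-1` on the first `m` entries of each block of parity `c`,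
`+1` on those of the other blocks. -/
noncomputable def field (B m R : ℕ) (c : Bool) (w : ℕ → ℕ) : ℕ →₀ ℤ :=
  ∑ l ∈ range (2 * (R + 2)), ∑ j ∈ range m,
    Finsupp.single (w (l * B + j)) (if l % 2 = par c then (-1 : ℤ) else 1)

end Vale.Agent.P125
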