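import Mathlib
import Vale.Agent.P125.Defs
import Vale.Agent.P125.ChainDefs

/-!
P125, module 4: along a path with distinct consecutive shifts the fields add up, on a middle
interval, to a relabelled inflated pattern.

For edge `e` and period `t`, `tgtBlock … e t` is the block of `w e` holding the piece of the next
state; consecutive pieces are nested strictly inside each other (`link`).
-/

namespace Vale.Agent.P125

open Finset

variable {n m D R : ℕ} {w : ℕ → ℕ → ℕ} {a b : ℕ → ℕ} {c : ℕ → Bool}

lemma par_le_one (c : Bool) : par c ≤ 1 := by cases c <;> simp [par]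

lemma par_not (c : Bool) : par (!c) = 1 - par c := by cases c <;> simp [par]

/-- Linear period number of the piece of edge `e` in its target state, before the time shift. -/
def tgtPeriod (n : ℕ) (a b : ℕ → ℕ) (c : ℕ → Bool) : ℕ → ℕ
  | 0 => n + 1
  | e + 1 => tgtPeriod n a b c e + (if b e < a (e + 1) then 1 else 0) + par (c (e + 1)) - 1

/-- The block of `w e` carrying that piece at time `t`. -/
def tgtBlock (n : ℕ) (a b : ℕ → ℕ) (c : ℕ → Bool) (e t : ℕ) : ℕ :=
  2 * (tgtPeriod n a b c e + t) + par (!(c e))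

lemma tgtPeriod_bounds (e : ℕ) :
    n + 1 ≤ tgtPeriod n a b c e + e ∧ tgtPeriod n a b c e ≤ n + 1 + e := by
  induction e with
  | zero => simp [tgtPeriod]
  | succ e ih =>
    have := par_le_one (c (e + 1))
    simp only [tgtPeriod]
    split_ifs <;> omega

lemma tgtBlock_bound (hR : 3 * n + 4 ≤ R) {e t : ℕ} (he : e < n) (ht : t ≤ n + 1) :
    1 ≤ tgtBlock n a b c e t ∧ tgtBlock n a b c e t + 1 < 2 * (R + 2) := by
  have := tgtPeriod_bounds (n := n) (a := a) (b := b) (c := c) e
  have := par_le_one (!(c e))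
  simp only [tgtBlock]
  omega

lemma tgtBlock_succ (e t : ℕ) :
    tgtBlock n a b c e (t + 1) = tgtBlock n a b c e t + 2 := by
  simp only [tgtBlock]; ring

lemma tgtBlock_even (e t : ℕ) : (tgtBlock n a b c e t) % 2 = par (!(c e)) := by
  have := par_le_one (!(c e))
  simp only [tgtBlock]; omega

lemma stIdx_shift {B m a k q r : ℕ} {c : Bool} (hr : r < B) (h : a * m + k = q * B + r) :
    stIdx B m a c k = (2 * q + par c) * B + r := by
  have hB : 0 < B := by omega
  have e1 : (q * B + r) / B = q := Nat.div_eq_of_lt_le (by omega) (by rw [Nat.succ_mul]; omega)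
  have e2 : (q * B + r) % B = r := by
    rw [Nat.mul_add_mod_self_right]; exact Nat.mod_eq_of_lt hr
  rw [stIdx, h, e1, e2]

/-- Strict monotonicity of `w e` at valid indices. -/
lemma w_lt (hw : ∀ i < n, StrictMonoOn (w i) (Set.Iio (2 * (R + 2) * (D * m)))) {e i j : ℕ}
    (he : e < n) (hij : i < j) (hj : j < 2 * (R + 2) * (D * m)) : w e i < w e j :=
  hw e he (Set.mem_Iio.2 (hij.trans hj)) (Set.mem_Iio.2 hj) hij

lemma w_le (hw : ∀ i < n, StrictMonoOn (w i) (Set.Iio (2 * (R + 2) * (D * m)))) {e i j : ℕ}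
    (he : e < n) (hij : i ≤ j) (hj : j < 2 * (R + 2) * (D * m)) : w e i ≤ w e j := by
  rcases eq_or_lt_of_le hij with h | h
  · rw [h]
  · exact (w_lt hw he h hj).le

lemma idx_lt {B L r : ℕ} (hL : L < 2 * (R + 2)) (hr : r < B) : L * B + r < 2 * (R + 2) * B := by
  have : (L + 1) * B ≤ 2 * (R + 2) * B := Nat.mul_le_mul_right B hL
  rw [Nat.succ_mul] at this
  omega

/-- Consecutive pieces are strictly nested. -/
lemma link (hm : 1 ≤ m) (hR : 3 * n + 4 ≤ R)
    (hw : ∀ i < n, StrictMonoOn (w i) (Set.Iio (2 * (R + 2) * (D * m))))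
    (ha : ∀ i < n, a i < D) (hb : ∀ i < n, b i < D)
    (hconn : ∀ i, i + 1 < n → ∀ k < R * (D * m),
      w i (stIdx (D * m) m (b i) (!(c i)) k) = w (i + 1) (stIdx (D * m) m (a (i + 1)) (c (i + 1)) k))
    (hgood : ∀ i, i + 1 < n → a (i + 1) ≠ b i)
    {e t : ℕ} (he : e + 1 < n) (ht : t ≤ n + 1) :
    w e (tgtBlock n a b c e t * (D * m) + (m - 1)) <
        w (e + 1) (tgtBlock n a b c (e + 1) t * (D * m)) ∧
      w (e + 1) ((tgtBlock n a b c (e + 1) t + 1) * (D * m) + (m - 1)) <
        w e ((tgtBlock n a b c e t + 1) * (D * m)) := by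
  have ha' := ha (e + 1) he
  have hb' := hb e (by omega)
  have hne := hgood e he
  have hbd := tgtPeriod_bounds (n := n) (a := a) (b := b) (c := c) e
  set q := tgtPeriod n a b c e + t with hq
  set δ := if b e < a (e + 1) then 1 else 0 with hδ
  -- the cut: `qB + r` in the old coordinates is `(q + δ)B` in the new ones
  obtain ⟨s, hs1, hs2, hs⟩ : ∃ s, 1 ≤ s ∧ s + 1 ≤ D ∧ s + a (e + 1) = b e + δ * D := by
    by_cases h : b e < a (e + 1)
    · exact ⟨D - (a (e + 1) - b e), by omega, by omega, by rw [hδ, if_pos h]; omega⟩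
    · exact ⟨b e - a (e + 1), by omega, by omega, by rw [hδ, if_neg h]; omega⟩
  set B := D * m with hBdef
  have hsm : m ≤ s * m := Nat.le_mul_of_pos_left m hs1
  have hsB : s * m + m ≤ B := by
    rw [hBdef, ← Nat.succ_mul]; exact Nat.mul_le_mul_right m hs2
  have hsum : s * m + a (e + 1) * m = b e * m + δ * B := by
    rw [hBdef, ← add_mul, hs, add_mul, mul_assoc]
  have hbB : b e * m + m ≤ B := by
    rw [hBdef, ← Nat.succ_mul]; exact Nat.mul_le_mul_right m hb'
  have hδ1 : δ ≤ 1 := by rw [hδ]; split_ifs <;> omega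
  have hq2 : 2 ≤ q + δ ∧ 2 ≤ q ∧ q + 2 ≤ R := by omega
  obtain ⟨q₀, hq₀⟩ : ∃ q₀, q + δ = q₀ + 1 := ⟨q + δ - 1, by omega⟩
  have hL' : tgtBlock n a b c (e + 1) t = 2 * q₀ + par (c (e + 1)) + 1 := by
    have := par_le_one (c (e + 1))
    have h3 := par_not (c (e + 1))
    simp only [tgtBlock, tgtPeriod, ← hδ]
    omega
  have hL : tgtBlock n a b c e t = 2 * q + par (!(c e)) := rfl
  have hmulB : ∀ {x y : ℕ}, x ≤ y → x * B ≤ y * B := fun h => Nat.mul_le_mul_right B h
  have h2B : 2 * B ≤ q * B := hmulB hq2.2.1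
  have hRB : q * B + 2 * B ≤ R * B := by rw [← add_mul]; exact hmulB hq2.2.2
  have hq0B : q * B + δ * B = q₀ * B + B := by rw [← add_mul, hq₀, add_mul, one_mul]
  -- the entry just before the cut
  have h1 := hconn e he (q * B + (s * m - 1) - b e * m) (by omega)
  rw [stIdx_shift (q := q) (r := s * m - 1) (by omega) (by omega),
    stIdx_shift (q := q₀) (r := B - 1) (by omega) (by omega), ← hL] at h1
  -- the entry at the end of the first run after the cut
  have h2 := hconn e he (q * B + (s * m + (m - 1)) - b e * m) (by omega)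
  rw [stIdx_shift (q := q) (r := s * m + (m - 1)) (by omega) (by omega),
    stIdx_shift (q := q₀ + 1) (r := m - 1) (by omega)
      (by rw [Nat.succ_mul q₀]; omega), ← hL] at h2
  have hbd' := tgtBlock_bound (a := a) (b := b) (c := c) hR (e := e + 1) he ht
  have hbd0 := tgtBlock_bound (a := a) (b := b) (c := c) hR (e := e) (t := t) (by omega) ht
  have i1 := idx_lt (R := R) (B := B) (L := tgtBlock n a b c (e + 1) t) (r := 0) (by omega) (by omega)
  have i2 := idx_lt (R := R) (B := B) (L := tgtBlock n a b c e t) (r := s * m - 1) (by omega)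
    (by omega)
  have i3 := idx_lt (R := R) (B := B) (L := tgtBlock n a b c e t + 1) (r := 0) (by omega) (by omega)
  rw [add_zero] at i1 i3
  constructor
  · calc w e (tgtBlock n a b c e t * B + (m - 1))
        ≤ w e (tgtBlock n a b c e t * B + (s * m - 1)) := w_le hw (by omega) (by omega) i2
      _ = w (e + 1) ((2 * q₀ + par (c (e + 1))) * B + (B - 1)) := h1
      _ < w (e + 1) (tgtBlock n a b c (e + 1) t * B) := by
          refine w_lt hw he ?_ i1
          rw [hL', add_mul _ 1, one_mul]; omega
  · have e3 : tgtBlock n a b c (e + 1) t + 1 = 2 * (q₀ + 1) + par (c (e + 1)) := by omega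
    rw [e3, ← h2]
    refine w_lt hw (by omega) ?_ i3
    rw [add_mul (tgtBlock n a b c e t) 1, one_mul]; omega

theorem nesting (n m D R : ℕ) (hn : 1 ≤ n) (hm : 1 ≤ m) (hR : 3 * n + 4 ≤ R)
    (w : ℕ → ℕ → ℕ) (a b : ℕ → ℕ) (c : ℕ → Bool)
    (hw : ∀ i < n, StrictMonoOn (w i) (Set.Iio (2 * (R + 2) * (D * m))))
    (ha : ∀ i < n, a i < D) (hb : ∀ i < n, b i < D)
    (hconn : ∀ i, i + 1 < n → ∀ k < R * (D * m),
      w i (stIdx (D * m) m (b i) (!(c i)) k) = w (i + 1) (stIdx (D * m) m (a (i + 1)) (c (i + 1)) k))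
    (hgood : ∀ i, i + 1 < n → a (i + 1) ≠ b i) :
    ∃ (lo hi : ℕ) (φ : ℕ → ℕ), StrictMono φ ∧
      (∑ i ∈ range n, field (D * m) m R (c i) (w i)).filter (fun u => lo ≤ u ∧ u < hi) =
        (pat (n * m) n).mapDomain φ := by
  classical
  have hD : 1 ≤ D := by have := ha 0 hn; omega
  have hmB : m ≤ D * m := Nat.le_mul_of_pos_left m hD
  set B := D * m with hBdef
  set L := tgtBlock n a b c with hLdef
  -- first runs: `P e t j` (sign `+`), runs after the nested piece: `M e t j` (sign `-`)
  set P : ℕ → ℕ → ℕ → ℕ := fun e t j => w e (L e t * B + j) with hP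
  set M : ℕ → ℕ → ℕ → ℕ := fun e t j => w e ((L e t + 1) * B + j) with hM
  have hlink : ∀ e t, e + 1 < n → t ≤ n + 1 →
      P e t (m - 1) < P (e + 1) t 0 ∧ M (e + 1) t (m - 1) < M e t 0 := fun e t he ht => by
    simp only [hP, hM, hLdef, add_zero]
    exact link hm hR hw ha hb hconn hgood he ht
  have hbd : ∀ e t, e < n → t ≤ n + 1 → 1 ≤ L e t ∧ L e t + 1 < 2 * (R + 2) :=
    fun e t he ht => tgtBlock_bound hR he ht
  have hBle : ∀ {x y : ℕ}, x ≤ y → x * B ≤ y * B := fun h => Nat.mul_le_mul_right B h
  have hin : ∀ e t, e < n → t ≤ n + 1 → ∀ j < m,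
      L e t * B + j < 2 * (R + 2) * B ∧ (L e t + 1) * B + j < 2 * (R + 2) * B := fun e t he ht j hj =>
    ⟨idx_lt (by have := hbd e t he ht; omega) (by omega), idx_lt (hbd e t he ht).2 (by omega)⟩
  have hPmono : ∀ e t, e < n → t ≤ n + 1 → ∀ j j', j < j' → j' < m → P e t j < P e t j' :=
    fun e t he ht j j' h h' => w_lt hw he (by omega) (hin e t he ht j' h').1
  have hMmono : ∀ e t, e < n → t ≤ n + 1 → ∀ j j', j < j' → j' < m → M e t j < M e t j' :=
    fun e t he ht j j' h h' => w_lt hw he (by omega) (hin e t he ht j' h').2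
  have hPle : ∀ e t, e < n → t ≤ n + 1 → P 0 t 0 ≤ P e t 0 := by
    intro e t he ht
    induction e with
    | zero => exact le_rfl
    | succ e ih =>
      have h1 := (hlink e t he ht).1
      have h2 : P e t 0 ≤ P e t (m - 1) := w_le hw (by omega) (by omega) (hin e t (by omega) ht _ (by omega)).1
      have h3 := ih (by omega)
      omega
  have hMle : ∀ e t, e < n → t ≤ n + 1 → M e t (m - 1) ≤ M 0 t (m - 1) := by
    intro e t he ht
    induction e with
    | zero => exact le_rfl
    | succ e ih =>
      have h1 := (hlink e t he ht).2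
      have h2 : M e t 0 ≤ M e t (m - 1) := w_le hw (by omega) (by omega) (hin e t (by omega) ht _ (by omega)).2
      have h3 := ih (by omega)
      omega
  have hnext : ∀ t, t ≤ n → M 0 t (m - 1) < P 0 (t + 1) 0 := by
    intro t ht
    refine w_lt hw hn ?_ (hin 0 (t + 1) hn (by omega) 0 (by omega)).1
    rw [show L 0 (t + 1) = L 0 t + 1 + 1 from tgtBlock_succ 0 t, add_mul (L 0 t + 1) 1, one_mul]
    omega
  have hPM : ∀ e t, e < n → t ≤ n + 1 → P e t (m - 1) < M e t 0 := by
    intro e t he ht
    refine w_lt hw he ?_ (hin e t he ht 0 (by omega)).2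
    rw [add_mul (L e t) 1, one_mul]; omega
  set lo := P 0 1 0 with hlo
  set hi := M 0 n (m - 1) + 1 with hhi
  -- the first runs `G = 0, …, n-1` (sign `+`) and `G = n, …, 2n-1` (sign `-`) of one period
  set Y : ℕ → ℕ → ℕ := fun G j =>
    if G % (2 * n) < n then P (G % (2 * n)) (G / (2 * n) + 1) j
    else M (2 * n - 1 - G % (2 * n)) (G / (2 * n) + 1) j with hY
  have hYdiv : ∀ G, G < 2 * n * n → G / (2 * n) < n := fun G h => Nat.div_lt_of_lt_mul h
  have hYmono : ∀ G, G < 2 * n * n → ∀ j j', j < j' → j' < m → Y G j < Y G j' := by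
    intro G hG j j' h h'
    have := hYdiv G hG
    have := Nat.mod_lt G (show 2 * n > 0 by omega)
    simp only [hY]
    split_ifs with hg
    · exact hPmono _ _ hg (by omega) j j' h h'
    · exact hMmono _ _ (by omega) (by omega) j j' h h'
  have hYstep : ∀ G, G + 1 < 2 * n * n → Y G (m - 1) < Y (G + 1) 0 := by
    intro G hG
    have hn2 : 2 * n > 0 := by omega
    have ht := hYdiv G (by omega)
    have hg := Nat.mod_lt G hn2
    have hdm := Nat.div_add_mod G (2 * n)
    by_cases hlast : G % (2 * n) + 1 = 2 * n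
    · have e1 : (G + 1) / (2 * n) = G / (2 * n) + 1 := by
        refine Nat.div_eq_of_lt_le ?_ ?_
        · rw [Nat.add_mul, one_mul, mul_comm]; omega
        · rw [Nat.add_mul, one_mul, Nat.add_mul, one_mul, mul_comm]; omega
      have e2 : (G + 1) % (2 * n) = 0 := by
        have := Nat.div_add_mod (G + 1) (2 * n)
        rw [e1, Nat.mul_add, mul_one] at this
        omega
      have e3 : 2 * n - 1 - G % (2 * n) = 0 := by omega
      simp only [hY, e1, e2, e3, if_pos (show 0 < n by omega), if_neg (show ¬ G % (2 * n) < n by omega)]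
      exact hnext _ (by omega)
    · have e1 : (G + 1) / (2 * n) = G / (2 * n) := by
        refine Nat.div_eq_of_lt_le ?_ ?_
        · rw [mul_comm]; omega
        · rw [Nat.add_mul, one_mul, mul_comm]; omega
      have e2 : (G + 1) % (2 * n) = G % (2 * n) + 1 := by
        have := Nat.div_add_mod (G + 1) (2 * n)
        rw [e1] at this
        omega
      simp only [hY, e1, e2]
      rcases lt_trichotomy (G % (2 * n) + 1) n with h | h | h
      · rw [if_pos (by omega), if_pos h]
        exact (hlink _ _ h (by omega)).1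
      · rw [if_pos (by omega), if_neg (by omega), show 2 * n - 1 - (G % (2 * n) + 1) = G % (2 * n) by omega]
        exact hPM _ _ (by omega) (by omega)
      · rw [if_neg (by omega), if_neg (by omega), show 2 * n - 1 - G % (2 * n) =
          (2 * n - 1 - (G % (2 * n) + 1)) + 1 by omega]
        exact (hlink _ _ (by omega) (by omega)).2
  set N := 2 * n * n * m with hN
  set V : ℕ → ℕ := fun u => Y (u / m) (u % m) with hV
  set φ : ℕ → ℕ := fun u => if u < N then V u else V (N - 1) + 1 + u with hφ
  have hdiv : ∀ u, u < N → u / m < 2 * n * n := fun u h =>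
    Nat.div_lt_of_lt_mul (by rw [mul_comm]; exact h)
  have hVstep : ∀ u, u + 1 < N → V u < V (u + 1) := by
    intro u hu
    have hd := Nat.div_add_mod u m
    have hr := Nat.mod_lt u (show m > 0 by omega)
    by_cases hlast : u % m + 1 = m
    · have e1 : (u + 1) / m = u / m + 1 := by
        refine Nat.div_eq_of_lt_le ?_ ?_
        · rw [Nat.add_mul, one_mul, mul_comm]; omega
        · rw [Nat.add_mul, one_mul, Nat.add_mul, one_mul, mul_comm]; omega
      have e2 : (u + 1) % m = 0 := by
        have := Nat.div_add_mod (u + 1) m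
        rw [e1, Nat.mul_add, mul_one] at this
        omega
      have := hdiv (u + 1) hu
      simp only [hV, e1, e2, show u % m = m - 1 by omega]
      exact hYstep _ (by omega)
    · have e1 : (u + 1) / m = u / m := by
        refine Nat.div_eq_of_lt_le ?_ ?_
        · rw [mul_comm]; omega
        · rw [Nat.add_mul, one_mul, mul_comm]; omega
      have e2 : (u + 1) % m = u % m + 1 := by
        have := Nat.div_add_mod (u + 1) m
        rw [e1] at this
        omega
      simp only [hV, e1, e2]
      exact hYmono _ (hdiv u (by omega)) _ _ (Nat.lt_succ_self _) (by omega)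
  have hφmono : StrictMono φ := by
    refine strictMono_nat_of_lt_succ fun u => ?_
    simp only [hφ]
    split_ifs with h1 h2 h2
    · exact hVstep u h2
    · rw [show N - 1 = u by omega]; omega
    · omega
    · omega
  refine ⟨lo, hi, φ, hφmono, ?_⟩
  -- one field inside the window
  have hfield : ∀ e ∈ range n, (field B m R (c e) (w e)).filter (fun u => lo ≤ u ∧ u < hi) =
      ∑ t ∈ range n, ((∑ j ∈ range m, Finsupp.single (P e (t + 1) j) (1 : ℤ)) +
        ∑ j ∈ range m, Finsupp.single (M e (t + 1) j) (-1 : ℤ)) := by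
    intro e he
    rw [mem_range] at he
    set S := fun l => ∑ j ∈ range m,
      Finsupp.single (w e (l * B + j)) (if l % 2 = par (c e) then (-1 : ℤ) else 1) with hS
    have hLt : ∀ t, L e t = L e 0 + 2 * t := by
      intro t; simp only [hLdef, tgtBlock]; ring
    have hinside : ∀ l ∈ Ico (L e 1) (L e (n + 1)), ∀ j < m,
        lo ≤ w e (l * B + j) ∧ w e (l * B + j) < hi := by
      intro l hl j hj
      rw [mem_Ico] at hl
      have h2 := hbd e (n + 1) he le_rfl
      have hlb : l * B + j < 2 * (R + 2) * B := idx_lt (by omega) (by omega)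
      refine ⟨(hPle e 1 he (by omega)).trans (w_le hw he ?_ hlb), ?_⟩
      · have := hBle hl.1; omega
      · refine Nat.lt_succ_of_le (le_trans ?_ (hMle e n he (by omega)))
        refine w_le hw he ?_ (hin e n he (by omega) _ (by omega)).2
        have : l ≤ L e n + 1 := by have := hLt n; have := hLt (n + 1); omega
        have := hBle this
        omega
    have houtside : ∀ l ∈ range (2 * (R + 2)), l ∉ Ico (L e 1) (L e (n + 1)) → ∀ j < m,
        ¬ (lo ≤ w e (l * B + j) ∧ w e (l * B + j) < hi) := by
      intro l hl hl' j hj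
      rw [mem_range] at hl
      rw [mem_Ico] at hl'
      rintro ⟨h1, h2⟩
      rcases Nat.lt_or_ge l (L e 1) with h | h
      · have h3 : w e (l * B + j) ≤ M e 0 (m - 1) := by
          refine w_le hw he ?_ (hin e 0 he (by omega) _ (by omega)).2
          have : l ≤ L e 0 + 1 := by have := hLt 1; omega
          have := hBle this
          omega
        have h4 := hMle e 0 he (by omega)
        have h5 := hnext 0 (by omega)
        rw [hlo] at h1
        simp only [zero_add] at h5
        omega
      · have h3 : P e (n + 1) 0 ≤ w e (l * B + j) := by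
          refine w_le hw he ?_ (idx_lt hl (by omega))
          have := hBle (show L e (n + 1) ≤ l by omega)
          omega
        have h4 := hPle e (n + 1) he le_rfl
        have h5 := hnext n le_rfl
        rw [hhi] at h2
        omega
    have hsub : Ico (L e 1) (L e (n + 1)) ⊆ range (2 * (R + 2)) := by
      intro l hl
      have := hbd e (n + 1) he le_rfl
      rw [mem_Ico] at hl
      rw [mem_range]; omega
    have hkeep : ∀ l ∈ Ico (L e 1) (L e (n + 1)), (S l).filter (fun u => lo ≤ u ∧ u < hi) = S l := by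
      intro l hl
      rw [hS, Finsupp.filter_sum]
      exact Finset.sum_congr rfl fun j hj =>
        Finsupp.filter_single_of_pos (fun u => lo ≤ u ∧ u < hi) (hinside l hl j (mem_range.1 hj))
    have hdrop : ∀ l ∈ range (2 * (R + 2)), l ∉ Ico (L e 1) (L e (n + 1)) →
        (S l).filter (fun u => lo ≤ u ∧ u < hi) = 0 := by
      intro l hl hl'
      rw [hS, Finsupp.filter_sum]
      exact Finset.sum_eq_zero fun j hj =>
        Finsupp.filter_single_of_neg (fun u => lo ≤ u ∧ u < hi) (houtside l hl hl' j (mem_range.1 hj))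
    rw [field, show (∑ l ∈ range (2 * (R + 2)), ∑ j ∈ range m, Finsupp.single (w e (l * B + j))
        (if l % 2 = par (c e) then (-1 : ℤ) else 1)) = ∑ l ∈ range (2 * (R + 2)), S l from rfl,
      Finsupp.filter_sum, ← Finset.sum_subset hsub hdrop, Finset.sum_congr rfl hkeep,
      Finset.sum_Ico_eq_sum_range, show L e (n + 1) - L e 1 = n * 2 by
        rw [hLt (n + 1), hLt 1]; omega]
    have hpair : ∀ k, (∑ i ∈ range (k * 2), S (L e 1 + i)) =
        ∑ t ∈ range k, (S (L e (t + 1)) + S (L e (t + 1) + 1)) := by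
      intro k
      induction k with
      | zero => simp
      | succ k ih =>
        rw [Nat.succ_mul, sum_range_succ, sum_range_succ, ih, sum_range_succ, add_assoc,
          show L e 1 + (k * 2) = L e (k + 1) by rw [hLt (k + 1), hLt 1]; ring, ← add_assoc (L e 1),
          show L e 1 + k * 2 = L e (k + 1) by rw [hLt (k + 1), hLt 1]; ring]
    rw [hpair]
    refine Finset.sum_congr rfl fun t _ => ?_
    have hpar := tgtBlock_even (n := n) (a := a) (b := b) (c := c) e (t + 1)
    have hp1 := par_le_one (c e)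
    have hp2 := par_not (c e)
    congr 1
    · simp only [hS, hP, hLdef]
      rw [if_neg (by omega)]
    · simp only [hS, hM, hLdef]
      rw [if_pos (by omega)]
  rw [Finsupp.filter_sum, Finset.sum_congr rfl hfield]
  -- the pattern side
  have hprod : ∀ (k l : ℕ) (f : ℕ → ℕ →₀ ℤ),
      ∑ u ∈ range (k * l), f u = ∑ x ∈ range k, ∑ y ∈ range l, f (x * l + y) := by
    intro k l f
    induction k with
    | zero => simp
    | succ k ih => rw [Nat.succ_mul, Finset.sum_range_add, ih, sum_range_succ]
  have hpat : (pat (n * m) n).mapDomain φ = ∑ u ∈ range N,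
      Finsupp.single (V u) (if u / (n * m) % 2 = 0 then (1 : ℤ) else -1) := by
    rw [pat, Finsupp.mapDomain_finset_sum, show 2 * (n * m) * n = N by rw [hN]; ring]
    refine Finset.sum_congr rfl fun u hu => ?_
    rw [Finsupp.mapDomain_single, hφ]
    simp only [if_pos (mem_range.1 hu)]
  rw [hpat, show N = n * (2 * n) * m by rw [hN]; ring, hprod, hprod, Finset.sum_comm]
  refine Finset.sum_congr rfl fun t _ => ?_
  have hGdiv : ∀ g, g < 2 * n → (t * (2 * n) + g) / (2 * n) = t ∧ (t * (2 * n) + g) % (2 * n) = g :=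
    fun g hg => ⟨Nat.div_eq_of_lt_le (by omega) (by rw [Nat.succ_mul t]; omega),
      by rw [Nat.mul_add_mod_self_right]; exact Nat.mod_eq_of_lt hg⟩
  have hterm : ∀ g, g < 2 * n → (∑ j ∈ range m, Finsupp.single (V ((t * (2 * n) + g) * m + j))
      (if ((t * (2 * n) + g) * m + j) / (n * m) % 2 = 0 then (1 : ℤ) else -1)) =
      if g < n then ∑ j ∈ range m, Finsupp.single (P g (t + 1) j) (1 : ℤ)
      else ∑ j ∈ range m, Finsupp.single (M (2 * n - 1 - g) (t + 1) j) (-1 : ℤ) := by
    intro g hg
    obtain ⟨e1, e2⟩ := hGdiv g hg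
    have hu : ∀ j, j < m → ((t * (2 * n) + g) * m + j) / m = t * (2 * n) + g ∧
        ((t * (2 * n) + g) * m + j) % m = j := fun j hj =>
      ⟨Nat.div_eq_of_lt_le (by omega) (by rw [Nat.succ_mul (t * (2 * n) + g)]; omega),
        by rw [Nat.mul_add_mod_self_right]; exact Nat.mod_eq_of_lt hj⟩
    have hs : ∀ j, j < m → ((t * (2 * n) + g) * m + j) / (n * m) % 2 = if g < n then 0 else 1 := by
      intro j hj
      have c1 : t * (2 * n) = 2 * t * n := by ring
      have c2 : (2 * t + 1) * n = 2 * t * n + n := by ring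
      have c3 : (2 * t + 1 + 1) * n = 2 * t * n + n + n := by ring
      rw [mul_comm n m, ← Nat.div_div_eq_div_mul, (hu j hj).1]
      split_ifs with h
      · rw [show (t * (2 * n) + g) / n = 2 * t from Nat.div_eq_of_lt_le (by omega) (by omega)]
        omega
      · rw [show (t * (2 * n) + g) / n = 2 * t + 1 from Nat.div_eq_of_lt_le (by omega) (by omega)]
        omega
    split_ifs with h
    · refine Finset.sum_congr rfl fun j hj => ?_
      rw [mem_range] at hj
      simp only [hs j hj, if_pos h, if_true, hV, (hu j hj).1, (hu j hj).2, hY, e1, e2]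
    · refine Finset.sum_congr rfl fun j hj => ?_
      rw [mem_range] at hj
      simp only [hs j hj, if_neg h, one_ne_zero, if_false, hV, (hu j hj).1, (hu j hj).2, hY, e1, e2]
  rw [Finset.sum_congr rfl fun g hg => hterm g (mem_range.1 hg), Finset.sum_add_distrib,
    show 2 * n = n + n by ring, Finset.sum_range_add]
  congr 1
  · exact Finset.sum_congr rfl fun g hg => by rw [if_pos (mem_range.1 hg)]
  · rw [← Finset.sum_range_reflect]
    refine Finset.sum_congr rfl fun g hg => ?_
    rw [mem_range] at hg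
    rw [if_neg (by omega), show n + n - 1 - (n + g) = n - 1 - g by omega]

end Vale.Agent.P125
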