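import Mathlib
import Vale.Agent.P125.BoxLift

/-!
P125: lower bound for path sums when consecutive edges rarely collide.
-/

namespace Vale.Agent.P125

open Finset

variable {V Ed : Type} [Fintype V] [DecidableEq V] [Fintype Ed] [DecidableEq Ed]
  {A : Type} [Fintype A] [DecidableEq A]

/-- Probability of a collision among the next `k` steps after the edge `e`. -/
noncomputable def badP (src : Ed → V) (rev : Ed → Ed) (q : Ed → ℝ) (sh : Ed → A) :
    ℕ → Ed → ℝ
  | 0, _ => 0
  | k + 1, e => ∑ e' ∈ univ.filter (fun e' => src e' = src (rev e)),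
      q e' / vW src q (src (rev e)) *
        (if sh (rev e) = sh e' then 1 else badP src rev q sh k e')

variable (src : Ed → V) (rev : Ed → Ed) (q : Ed → ℝ) (g : Ed → (ℕ →₀ ℤ)) (sh : Ed → A)

lemma badP_nonneg (hq0 : ∀ e, 0 ≤ q e) (hπ : ∀ x, 0 < vW src q x) :
    ∀ k e, 0 ≤ badP src rev q sh k e := by
  intro k
  induction k with
  | zero => intro e; exact le_rfl
  | succ k ih =>
    intro e
    refine Finset.sum_nonneg (fun e' _ => mul_nonneg (div_nonneg (hq0 _) (hπ _).le) ?_)
    split
    · exact zero_le_one
    · exact ih e'

lemma badP_le_one (hq0 : ∀ e, 0 ≤ q e) (hπ : ∀ x, 0 < vW src q x) :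
    ∀ k e, badP src rev q sh k e ≤ 1 := by
  intro k
  induction k with
  | zero => intro e; exact zero_le_one
  | succ k ih =>
    intro e
    calc badP src rev q sh (k + 1) e
        ≤ ∑ e' ∈ univ.filter (fun e' => src e' = src (rev e)),
            q e' / vW src q (src (rev e)) * 1 := by
          refine Finset.sum_le_sum (fun e' _ => ?_)
          refine mul_le_mul_of_nonneg_left ?_ (div_nonneg (hq0 _) (hπ _).le)
          split
          · exact le_rfl
          · exact ih e'
      _ = 1 := by
          simp only [mul_one]
          rw [← Finset.sum_div]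
          exact div_self (hπ _).ne'

lemma acc_lower (hq0 : ∀ e, 0 ≤ q e) (hπ : ∀ x, 0 < vW src q x)
    (φ : (ℕ →₀ ℤ) → ℝ) (hφ : ∀ s, 0 ≤ φ s) (c : ℝ) (hc : 0 ≤ c) :
    ∀ (k : ℕ) (e : Ed) (s : ℕ →₀ ℤ),
      (∀ es : ℕ → Ed, es 0 = e → (∀ i < k, src (es (i + 1)) = src (rev (es i)) ∧
          sh (rev (es i)) ≠ sh (es (i + 1))) →
        c ≤ φ (s + ∑ i ∈ range k, g (es (i + 1)))) →
      c * (1 - badP src rev q sh k e) ≤ acc src rev q g φ k (src (rev e)) s := by
  intro k
  induction k with
  | zero =>
    intro e s h
    have := h (fun _ => e) rfl (fun i hi => absurd hi (Nat.not_lt_zero i))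
    simpa [badP, acc] using this
  | succ k ih =>
    intro e s h
    have hone : (∑ e' ∈ univ.filter (fun e' => src e' = src (rev e)),
        q e' / vW src q (src (rev e))) = 1 := by
      rw [← Finset.sum_div]
      exact div_self (hπ _).ne'
    rw [badP, acc]
    calc c * (1 - ∑ e' ∈ univ.filter (fun e' => src e' = src (rev e)),
          q e' / vW src q (src (rev e)) *
            (if sh (rev e) = sh e' then 1 else badP src rev q sh k e'))
        = ∑ e' ∈ univ.filter (fun e' => src e' = src (rev e)),
            q e' / vW src q (src (rev e)) *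
              (c * (1 - if sh (rev e) = sh e' then 1 else badP src rev q sh k e')) := by
          simp only [mul_sub, Finset.sum_sub_distrib, Finset.mul_sum, mul_one]
          rw [← Finset.sum_mul, hone, one_mul]
          exact congrArg _ (Finset.sum_congr rfl (fun e' _ => by ring))
      _ ≤ _ := by
          refine Finset.sum_le_sum (fun e' he' => ?_)
          simp only [mem_filter, mem_univ, true_and] at he'
          refine mul_le_mul_of_nonneg_left ?_ (div_nonneg (hq0 _) (hπ _).le)
          have hnn : ∀ j x t, 0 ≤ acc src rev q g φ j x t := by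
            intro j
            induction j with
            | zero => intro x t; exact hφ t
            | succ j ihj =>
              intro x t
              exact Finset.sum_nonneg
                (fun f _ => mul_nonneg (div_nonneg (hq0 _) (hπ _).le) (ihj _ _))
          split
          · simpa using hnn _ _ _
          · next hne =>
            refine ih e' (s + g e') (fun es h0 hes => ?_)
            have h' := h (fun i => if i = 0 then e else es (i - 1)) (by simp) ?_
            · refine le_of_le_of_eq h' ?_
              congr 1
              rw [Finset.sum_range_succ']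
              simp only [Nat.succ_ne_zero, if_false, Nat.add_sub_cancel, Nat.sub_self, zero_add,
                one_ne_zero, h0]
              abel
            · intro i hi
              rcases i with _ | i
              · simp only [zero_add, one_ne_zero, if_false, Nat.sub_self, if_true, h0]
                exact ⟨he', hne⟩
              · simp only [Nat.succ_ne_zero, if_false, Nat.add_sub_cancel]
                exact hes i (by omega)

lemma sum_badP_le (hrev : ∀ e, rev (rev e) = e) (hq0 : ∀ e, 0 ≤ q e)
    (hq : ∀ e, q (rev e) = q e) (hπ : ∀ x, 0 < vW src q x) :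
    ∀ k : ℕ, ∑ e, q e * badP src rev q sh k e ≤
      k * ∑ e, q e * badP src rev q sh 1 e := by
  have hstat : ∀ F : Ed → ℝ, ∑ e, q e *
      ∑ e' ∈ univ.filter (fun e' => src e' = src (rev e)),
        q e' / vW src q (src (rev e)) * F e' = ∑ e', q e' * F e' := by
    intro F
    have hmass : ∀ x, (∑ e ∈ univ.filter (fun e => src (rev e) = x), q e) = vW src q x := by
      intro x
      refine Finset.sum_bij' (fun e _ => rev e) (fun e _ => rev e) ?_ ?_ ?_ ?_ ?_
      · intro e he; simpa using he
      · intro e he; simpa [hrev] using he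
      · intro e _; exact hrev e
      · intro e _; exact hrev e
      · intro e _; exact (hq e).symm
    rw [← Finset.sum_fiberwise univ (fun e => src (rev e))
      (fun e => q e * ∑ e' ∈ univ.filter (fun e' => src e' = src (rev e)),
        q e' / vW src q (src (rev e)) * F e'),
      ← Finset.sum_fiberwise univ src (fun e' => q e' * F e')]
    refine Finset.sum_congr rfl (fun x _ => ?_)
    rw [Finset.sum_congr rfl (g := fun e => q e *
      ∑ e' ∈ univ.filter (fun e' => src e' = x), q e' / vW src q x * F e')
      (fun e he => by rw [(mem_filter.1 he).2]), ← Finset.sum_mul, hmass, Finset.mul_sum]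
    refine Finset.sum_congr rfl (fun e' _ => ?_)
    field_simp [(hπ x).ne']
  intro k
  induction k with
  | zero => simp [badP]
  | succ k ih =>
    have hle : ∀ e, badP src rev q sh (k + 1) e ≤ badP src rev q sh 1 e +
        ∑ e' ∈ univ.filter (fun e' => src e' = src (rev e)),
          q e' / vW src q (src (rev e)) * badP src rev q sh k e' := by
      intro e
      simp only [badP]
      rw [← Finset.sum_add_distrib]
      refine Finset.sum_le_sum (fun e' _ => ?_)
      have h0 : 0 ≤ q e' / vW src q (src (rev e)) := div_nonneg (hq0 _) (hπ _).le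
      have h1 := mul_nonneg h0 (badP_nonneg src rev q sh hq0 hπ k e')
      split <;> simp <;> linarith
    calc ∑ e, q e * badP src rev q sh (k + 1) e
        ≤ ∑ e, q e * (badP src rev q sh 1 e +
            ∑ e' ∈ univ.filter (fun e' => src e' = src (rev e)),
              q e' / vW src q (src (rev e)) * badP src rev q sh k e') :=
          Finset.sum_le_sum (fun e _ => mul_le_mul_of_nonneg_left (hle e) (hq0 e))
      _ = (∑ e, q e * badP src rev q sh 1 e) + ∑ e, q e * badP src rev q sh k e := by
          simp only [mul_add, Finset.sum_add_distrib]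
          rw [hstat]
      _ ≤ _ := by push_cast; linarith

/-- Weight of the edges leaving `x` with shift `a`. -/
noncomputable def shW (x : V) (a : A) : ℝ :=
  ∑ e ∈ univ.filter (fun e => src e = x ∧ sh e = a), q e

lemma collision_le (hrev : ∀ e, rev (rev e) = e) (hq0 : ∀ e, 0 ≤ q e)
    (hq : ∀ e, q (rev e) = q e) (hπ : ∀ x, 0 < vW src q x) (hq1 : (∑ e, q e) = 1)
    (d ε : ℝ) (hd : 0 < d) (hA : (Fintype.card A : ℝ) = d)
    (h : ∀ a, ∑ x, |shW src q sh x a - vW src q x / d| ≤ ε / d) :
    ∑ e, q e * badP src rev q sh 1 e ≤ 1 / d + ε := by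
  have hdual : ∀ (x : V) (a : A),
      (∑ e ∈ univ.filter (fun e => src (rev e) = x ∧ sh (rev e) = a), q e) =
        shW src q sh x a := by
    intro x a
    refine Finset.sum_bij' (fun e _ => rev e) (fun e _ => rev e) ?_ ?_ ?_ ?_ ?_
    · intro e he; simpa using he
    · intro e he; simpa [hrev] using he
    · intro e _; exact hrev e
    · intro e _; exact hrev e
    · intro e _; exact (hq e).symm
  have hb : ∀ e, badP src rev q sh 1 e =
      shW src q sh (src (rev e)) (sh (rev e)) / vW src q (src (rev e)) := by
    intro e
    simp only [badP, shW, Finset.sum_div, mul_ite, mul_one, mul_zero]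
    rw [← Finset.sum_filter, Finset.filter_filter]
    refine Finset.sum_congr (Finset.filter_congr (fun e' _ => ?_)) (fun e' _ => rfl)
    constructor
    · exact fun h => ⟨h.1, h.2.symm⟩
    · exact fun h => ⟨h.1, h.2.symm⟩
  calc ∑ e, q e * badP src rev q sh 1 e
      = ∑ x, ∑ a, shW src q sh x a * (shW src q sh x a / vW src q x) := by
        simp only [hb]
        rw [← Fintype.sum_prod_type', ← Finset.sum_fiberwise univ
          (fun e => (src (rev e), sh (rev e)))]
        refine Finset.sum_congr rfl (fun xa _ => ?_)
        rw [← hdual xa.1 xa.2, Finset.sum_mul]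
        refine Finset.sum_congr (Finset.filter_congr (fun e _ => ?_)) (fun e he => ?_)
        · simp [Prod.ext_iff]
        · simp only [mem_filter, mem_univ, true_and] at he
          rw [he.1, he.2, hdual]
    _ ≤ ∑ x, ∑ a, (shW src q sh x a / d + |shW src q sh x a - vW src q x / d|) := by
        refine Finset.sum_le_sum (fun x _ => Finset.sum_le_sum (fun a _ => ?_))
        set u := shW src q sh x a
        set v := vW src q x
        have hu0 : 0 ≤ u := Finset.sum_nonneg (fun e _ => hq0 e)
        have huv : u ≤ v := Finset.sum_le_sum_of_subset_of_nonneg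
          (fun e he => by simp only [mem_filter, mem_univ, true_and] at he ⊢; exact he.1)
          (fun e _ _ => hq0 e)
        have hr : u / v ≤ 1 := (div_le_one (hπ x)).2 huv
        have hr0 : 0 ≤ u / v := div_nonneg hu0 (hπ x).le
        calc u * (u / v) = (v / d) * (u / v) + (u - v / d) * (u / v) := by ring
          _ ≤ u / d + |u - v / d| := by
              refine add_le_add (le_of_eq (by
                have : v ≠ 0 := (hπ x).ne'
                field_simp)) ?_
              exact (mul_le_mul_of_nonneg_right (le_abs_self _) hr0).trans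
                (mul_le_of_le_one_right (abs_nonneg _) hr)
    _ ≤ 1 / d + ε := by
        simp only [Finset.sum_add_distrib]
        refine add_le_add (le_of_eq ?_) ?_
        · have hx : ∀ x, (∑ a, shW src q sh x a) = vW src q x := by
            intro x
            rw [vW, ← Finset.sum_fiberwise (univ.filter (fun e => src e = x)) sh q]
            simp only [shW, Finset.filter_filter]
          simp only [← Finset.sum_div, hx]
          simp only [vW]
          rw [Finset.sum_fiberwise univ src q, hq1]
        · rw [Finset.sum_comm]
          refine (Finset.sum_le_sum (fun a _ => h a)).trans (le_of_eq ?_)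
          rw [Finset.sum_const, card_univ, nsmul_eq_mul, hA]
          field_simp

theorem path_lower (hrev : ∀ e, rev (rev e) = e) (hq0 : ∀ e, 0 ≤ q e)
    (hq : ∀ e, q (rev e) = q e) (hq1 : (∑ e, q e) = 1) (hπ : ∀ x, 0 < vW src q x)
    (d ε : ℝ) (hd : 0 < d) (hA : (Fintype.card A : ℝ) = d)
    (h : ∀ a, ∑ x, |shW src q sh x a - vW src q x / d| ≤ ε / d)
    (φ : (ℕ →₀ ℤ) → ℝ) (hφ : ∀ s, 0 ≤ φ s) (c : ℝ) (hc : 0 ≤ c) (n : ℕ)
    (hgood : ∀ es : ℕ → Ed, (∀ i < n, src (es (i + 1)) = src (rev (es i)) ∧
        sh (rev (es i)) ≠ sh (es (i + 1))) → c ≤ φ (∑ i ∈ range (n + 1), g (es i))) :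
    c * (1 - n * (1 / d + ε)) ≤ ∑ x, vW src q x * acc src rev q g φ (n + 1) x 0 := by
  have h1 : ∑ x, vW src q x * acc src rev q g φ (n + 1) x 0 =
      ∑ e, q e * acc src rev q g φ n (src (rev e)) (g e) := by
    rw [← Finset.sum_fiberwise univ src
      (fun e => q e * acc src rev q g φ n (src (rev e)) (g e))]
    refine Finset.sum_congr rfl (fun x _ => ?_)
    rw [acc, Finset.mul_sum]
    refine Finset.sum_congr rfl (fun e _ => ?_)
    rw [zero_add]
    field_simp [(hπ x).ne']
  rw [h1]
  have h2 : ∀ e, c * (1 - badP src rev q sh n e) ≤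
      acc src rev q g φ n (src (rev e)) (g e) := by
    intro e
    refine acc_lower src rev q g sh hq0 hπ φ hφ c hc n e (g e) (fun es h0 hes => ?_)
    have := hgood es hes
    rwa [Finset.sum_range_succ', h0, add_comm] at this
  calc c * (1 - n * (1 / d + ε))
      ≤ c * (1 - ∑ e, q e * badP src rev q sh n e) := by
        refine mul_le_mul_of_nonneg_left ?_ hc
        have := (sum_badP_le src rev q sh hrev hq0 hq hπ n).trans
          (mul_le_mul_of_nonneg_left
            (collision_le src rev q sh hrev hq0 hq hπ hq1 d ε hd hA h) (Nat.cast_nonneg n))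
        linarith
    _ = ∑ e, q e * (c * (1 - badP src rev q sh n e)) := by
        calc c * (1 - ∑ e, q e * badP src rev q sh n e)
            = c * ((∑ e, q e) - ∑ e, q e * badP src rev q sh n e) := by rw [hq1]
          _ = _ := by
              rw [← Finset.sum_sub_distrib, Finset.mul_sum]
              exact Finset.sum_congr rfl (fun e _ => by ring)
    _ ≤ _ := Finset.sum_le_sum (fun e _ => mul_le_mul_of_nonneg_left (h2 e) (hq0 e))

end Vale.Agent.P125
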