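import Mathlib
import Vale.Agent.P125.BoxLift

/-!
P125: norms of patterns in a spreading seminorm with bounded prefix sums.
-/

namespace Vale.Agent.P125

open Finset

lemma exists_strictMono_extension (φ : ℕ → ℕ) (L : ℕ) (h : StrictMonoOn φ (Set.Iio L)) :
    ∃ ψ : ℕ → ℕ, StrictMono ψ ∧ ∀ i < L, ψ i = φ i := by
  induction L with
  | zero => exact ⟨id, strictMono_id, fun i hi => absurd hi (Nat.not_lt_zero i)⟩
  | succ L _ =>
    refine ⟨fun i => if i ≤ L then φ i else φ L + (i - L), ?_, fun i hi => if_pos (by omega)⟩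
    refine strictMono_nat_of_lt_succ (fun i => ?_)
    rcases lt_trichotomy i L with hlt | rfl | hgt
    · rw [if_pos (by omega), if_pos (by omega)]
      exact h (Set.mem_Iio.2 (by omega)) (Set.mem_Iio.2 (by omega)) (Nat.lt_succ_self i)
    · rw [if_pos le_rfl, if_neg (by omega)]; omega
    · rw [if_neg (by omega), if_neg (by omega)]; omega

lemma mapDomain_congr_of_bound {R : Type*} [AddCommMonoid R] (c : ℕ →₀ R) (φ ψ : ℕ → ℕ) (L : ℕ)
    (hc : ∀ i ∈ c.support, i < L) (h : ∀ i < L, ψ i = φ i) :
    c.mapDomain φ = c.mapDomain ψ :=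
  Finsupp.mapDomain_congr (fun i hi => (h i (hc i hi)).symm)

lemma pat_support (m r i : ℕ) (hi : i ∈ (pat m r).support) : i < 2 * m * r := by
  classical
  have := Finsupp.support_finsetSum hi
  simp only [mem_biUnion, mem_range] at this
  obtain ⟨j, hj, hj'⟩ := this
  have := Finsupp.support_single_subset hj'
  simp only [mem_singleton] at this
  omega

lemma pat_apply (m r i : ℕ) :
    pat m r i = if i < 2 * m * r then (if i / m % 2 = 0 then 1 else -1) else 0 := by
  classical
  simp [pat, Finsupp.finsetSum_apply, Finsupp.single_apply]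

lemma pat_add (m a b : ℕ) :
    pat m (a + b) = pat m a + (pat m b).mapDomain (fun i => i + 2 * m * a) := by
  classical
  ext i
  rw [Finsupp.add_apply, pat_apply, pat_apply]
  have hinj : Function.Injective (fun i : ℕ => i + 2 * m * a) := add_left_injective _
  by_cases hi : 2 * m * a ≤ i
  · obtain ⟨j, rfl⟩ := Nat.exists_eq_add_of_le hi
    rw [show 2 * m * a + j = (fun i => i + 2 * m * a) j by simp [add_comm],
      Finsupp.mapDomain_apply hinj, pat_apply]
    simp only
    rcases Nat.eq_zero_or_pos m with hm | hm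
    · subst hm; simp
    · have h2 : (j + 2 * m * a) / m % 2 = j / m % 2 := by
        rw [show j + 2 * m * a = j + m * (2 * a) by ring, Nat.add_mul_div_left _ _ hm]
        omega
      rw [h2, mul_add]
      by_cases hj : j < 2 * m * b
      · rw [if_pos (by linarith), if_neg (not_lt.2 (Nat.le_add_left _ _)), if_pos hj]
        split_ifs <;> simp
      · rw [if_neg (by linarith), if_neg (not_lt.2 (Nat.le_add_left _ _)), if_neg hj, add_zero]
  · have h0 : (pat m b).mapDomain (fun i => i + 2 * m * a) i = 0 := by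
      refine Finsupp.mapDomain_notin_range _ _ ?_
      rintro ⟨j, hj⟩
      simp only at hj
      omega
    rw [h0, add_zero, mul_add, if_pos (Nat.lt_add_right _ (lt_of_not_ge hi)), if_pos (lt_of_not_ge hi)]

lemma toR_mapDomain (φ : ℕ → ℕ) (c : ℕ →₀ ℤ) :
    toR (c.mapDomain φ) = (toR c).mapDomain φ := by
  exact (Finsupp.mapDomain_mapRange φ c (fun z : ℤ => (z : ℝ)) Int.cast_zero
    (fun a b => Int.cast_add a b)).symm

lemma toR_sum {ι : Type*} (s : Finset ι) (f : ι → (ℕ →₀ ℤ)) :
    toR (∑ i ∈ s, f i) = ∑ i ∈ s, toR (f i) := by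
  classical
  induction s using Finset.induction with
  | empty => simp [toR_zero]
  | insert a s ha ih => rw [sum_insert ha, sum_insert ha, toR_add, ih]

section Norm

variable {N : Seminorm ℝ (ℕ →₀ ℝ)} {C : ℝ}

lemma IsSpreadNorm.map_le (h : IsSpreadNorm N C) (c : ℕ →₀ ℝ) (φ : ℕ → ℕ) (L : ℕ)
    (hc : ∀ i ∈ c.support, i < L) (hφ : StrictMonoOn φ (Set.Iio L)) :
    N (c.mapDomain φ) = N c := by
  obtain ⟨ψ, hψ, he⟩ := exists_strictMono_extension φ L hφ
  rw [mapDomain_congr_of_bound c φ ψ L hc he, h.spread ψ hψ]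

lemma IsSpreadNorm.single_le' (h : IsSpreadNorm N C) (i : ℕ) (r : ℝ) :
    N (Finsupp.single i r) ≤ |r| := by
  rw [← Finsupp.smul_single_one, map_smul_eq_mul, Real.norm_eq_abs]
  exact mul_le_of_le_one_right (abs_nonneg r) (h.single_le i)

/-- The mean of `L` unit vectors starting at `i + 1`. -/
noncomputable def avgVec (L i : ℕ) : ℕ →₀ ℝ :=
  (L : ℝ)⁻¹ • ∑ s ∈ range L, Finsupp.single (i + s + 1) (1 : ℝ)

lemma IsSpreadNorm.avgVec_le (h : IsSpreadNorm N C) (L i : ℕ) : N (avgVec L i) ≤ 1 := by
  rcases Nat.eq_zero_or_pos L with h0 | h0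
  · simp [avgVec, h0]
  rw [avgVec, map_smul_eq_mul, Real.norm_eq_abs, abs_of_nonneg (by positivity)]
  calc (L : ℝ)⁻¹ * N (∑ s ∈ range L, Finsupp.single (i + s + 1) (1 : ℝ))
      ≤ (L : ℝ)⁻¹ * ∑ s ∈ range L, N (Finsupp.single (i + s + 1) (1 : ℝ)) := by
        gcongr
        exact Finset.le_sum_of_subadditive N (map_zero N).le (map_add_le_add N) _ _
    _ ≤ (L : ℝ)⁻¹ * ∑ s ∈ range L, (1 : ℝ) := by
        gcongr
        exact h.single_le _
    _ = 1 := by simp; field_simp

lemma avgVec_sub_le (h : IsSpreadNorm N C) (L i j : ℕ) :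
    N (avgVec L i - avgVec L j) ≤ 2 * |(i : ℝ) - j| / L := by
  wlog hij : j ≤ i generalizing i j
  · rw [← map_neg_eq_map, neg_sub, abs_sub_comm]
    exact this j i (le_of_not_ge hij)
  obtain ⟨d, rfl⟩ := Nat.exists_eq_add_of_le hij
  have key : avgVec L (j + d) - avgVec L j = (L : ℝ)⁻¹ •
      ((∑ s ∈ range d, Finsupp.single (j + L + s + 1) (1 : ℝ)) -
        ∑ s ∈ range d, Finsupp.single (j + s + 1) (1 : ℝ)) := by
    rw [avgVec, avgVec, ← smul_sub]
    congr 1
    have e1 : ∑ s ∈ range (d + L), Finsupp.single (j + s + 1) (1 : ℝ) =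
        (∑ s ∈ range d, Finsupp.single (j + s + 1) (1 : ℝ)) +
        ∑ s ∈ range L, Finsupp.single (j + d + s + 1) (1 : ℝ) := by
      rw [sum_range_add]
      simp only [add_assoc]
    have e2 : ∑ s ∈ range (L + d), Finsupp.single (j + s + 1) (1 : ℝ) =
        (∑ s ∈ range L, Finsupp.single (j + s + 1) (1 : ℝ)) +
        ∑ s ∈ range d, Finsupp.single (j + L + s + 1) (1 : ℝ) := by
      rw [sum_range_add]
      simp only [add_assoc]
    rw [add_comm L d, e1] at e2
    rw [sub_eq_sub_iff_add_eq_add, add_comm _ (∑ s ∈ range d, Finsupp.single (j + s + 1) (1 : ℝ)),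
      e2, add_comm]
  rw [key, map_smul_eq_mul, Real.norm_eq_abs, abs_of_nonneg (by positivity : (0:ℝ) ≤ (L : ℝ)⁻¹)]
  have hb : ∀ o : ℕ, N (∑ s ∈ range d, Finsupp.single (o + s + 1) (1 : ℝ)) ≤ d := by
    intro o
    refine (Finset.le_sum_of_subadditive N (map_zero N).le (map_add_le_add N) _ _).trans ?_
    refine (Finset.sum_le_sum (fun s _ => h.single_le _)).trans (le_of_eq ?_)
    simp
  refine (mul_le_mul_of_nonneg_left ((map_sub_le_add N _ _).trans
    (add_le_add (hb (j + L)) (hb j))) (by positivity)).trans (le_of_eq ?_)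
  push_cast
  rw [add_sub_cancel_left, abs_of_nonneg (Nat.cast_nonneg d : (0:ℝ) ≤ d)]
  ring

/-- Restricting to a prefix costs a bounded factor. -/
theorem IsSpreadNorm.prefix_norm_le (h : IsSpreadNorm N C) (c : ℕ →₀ ℝ) (j : ℕ) :
    N (c.filter (fun i => i < j)) ≤ (1 + 2 * C) * N c := by
  classical
  set head := c.filter (fun i => i < j) with hhead
  set J := c.support.sup id + j + 1 with hJ
  set T := c.support.filter (fun i => j ≤ i) with hT
  have htail : ∑ i ∈ T, c i = (∑ i ∈ range J, c i) - ∑ i ∈ range j, c i := by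
    rw [← Finset.sum_Ico_eq_sub _ (by omega : j ≤ J)]
    refine Finset.sum_subset ?_ ?_
    · intro i hi
      simp only [hT, mem_filter] at hi
      have : i ≤ c.support.sup id := Finset.le_sup (f := id) hi.1
      simp only [mem_Ico]
      omega
    · intro i hi hn
      simp only [mem_Ico] at hi
      simp only [hT, mem_filter, not_and] at hn
      by_contra hne
      exact hn (Finsupp.mem_support_iff.2 hne) hi.1
  have hS : |∑ i ∈ T, c i| ≤ 2 * C * N c := by
    rw [htail]
    refine (abs_sub _ _).trans ?_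
    linarith [h.prefix_le c J, h.prefix_le c j]
  have main : ∀ L : ℕ, 1 ≤ L →
      N head ≤ (1 + 2 * C) * N c + (∑ i ∈ T, |c i|) * (2 * J) / L := by
    intro L hL
    have hz : head + ∑ i ∈ T, c i • avgVec L i =
        (L : ℝ)⁻¹ • ∑ s ∈ range L, c.mapDomain (fun i => if i < j then i else i + s + 1) := by
      have hm : ∀ s, c.mapDomain (fun i => if i < j then i else i + s + 1) =
          head + ∑ i ∈ T, c i • Finsupp.single (i + s + 1) (1 : ℝ) := by
        intro s
        rw [Finsupp.mapDomain, Finsupp.sum,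
          ← Finset.sum_filter_add_sum_filter_not c.support (fun i => i < j)]
        congr 1
        · rw [hhead, ← Finsupp.sum_single (c.filter (fun i => i < j)), Finsupp.sum,
            Finsupp.support_filter]
          refine Finset.sum_congr rfl (fun i hi => ?_)
          rw [if_pos (mem_filter.1 hi).2]
          congr 1
          exact (Finsupp.filter_apply_pos (fun k => k < j) c (mem_filter.1 hi).2).symm
        · refine Finset.sum_congr (by simp [hT]) (fun i hi => ?_)
          simp only [hT, mem_filter, not_lt] at hi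
          rw [if_neg (by omega), Finsupp.smul_single_one]
      simp only [hm, sum_add_distrib, sum_const, card_range, smul_add]
      congr 1
      · rw [← Nat.cast_smul_eq_nsmul ℝ, smul_smul,
          inv_mul_cancel₀ (Nat.cast_ne_zero.2 (by omega)), one_smul]
      · rw [Finset.sum_comm, Finset.smul_sum]
        refine Finset.sum_congr rfl (fun i _ => ?_)
        rw [avgVec, ← Finset.smul_sum, smul_comm]
    have hzle : N (head + ∑ i ∈ T, c i • avgVec L i) ≤ N c := by
      rw [hz, map_smul_eq_mul, Real.norm_eq_abs, abs_of_nonneg (by positivity)]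
      refine (mul_le_mul_of_nonneg_left (Finset.le_sum_of_subadditive N (map_zero N).le
        (map_add_le_add N) _ _) (by positivity)).trans (le_of_eq ?_)
      rw [Finset.sum_congr rfl (fun s _ => h.spread _ ?_ c)]
      · simp only [sum_const, card_range, nsmul_eq_mul]
        field_simp
      · intro a b hab
        simp only
        split <;> split <;> omega
    have herr : N (∑ i ∈ T, c i • avgVec L i - (∑ i ∈ T, c i) • avgVec L j) ≤
        (∑ i ∈ T, |c i|) * (2 * J) / L := by
      rw [Finset.sum_smul, ← Finset.sum_sub_distrib]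
      refine (Finset.le_sum_of_subadditive N (map_zero N).le (map_add_le_add N) _ _).trans ?_
      rw [Finset.sum_mul, Finset.sum_div]
      refine Finset.sum_le_sum (fun i hi => ?_)
      rw [← smul_sub, map_smul_eq_mul, Real.norm_eq_abs, mul_div_assoc]
      refine mul_le_mul_of_nonneg_left ((avgVec_sub_le h L i j).trans ?_) (abs_nonneg _)
      simp only [hT, mem_filter] at hi
      have : i ≤ c.support.sup id := Finset.le_sup (f := id) hi.1
      have h1 : (j : ℝ) ≤ i := by exact_mod_cast hi.2
      have h2 : (i : ℝ) ≤ J := by exact_mod_cast (by omega : i ≤ J)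
      rw [abs_of_nonneg (by linarith)]
      gcongr
      linarith [(Nat.cast_nonneg j : (0:ℝ) ≤ j)]
    calc N head = N ((head + ∑ i ∈ T, c i • avgVec L i) -
          (∑ i ∈ T, c i • avgVec L i - (∑ i ∈ T, c i) • avgVec L j) -
          (∑ i ∈ T, c i) • avgVec L j) := by congr 1; abel
      _ ≤ N c + (∑ i ∈ T, |c i|) * (2 * J) / L + 2 * C * N c := by
          refine (map_sub_le_add N _ _).trans (add_le_add ((map_sub_le_add N _ _).trans
            (add_le_add hzle herr)) ?_)
          rw [map_smul_eq_mul, Real.norm_eq_abs]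
          exact (mul_le_mul hS (h.avgVec_le L j) (apply_nonneg N _)
            (le_trans (abs_nonneg _) hS)).trans (le_of_eq (mul_one _))
      _ = _ := by ring
  refine le_of_forall_pos_le_add (fun η hη => ?_)
  obtain ⟨L, hL⟩ := exists_nat_gt ((∑ i ∈ T, |c i|) * (2 * J) / η)
  have hn : (0:ℝ) ≤ (∑ i ∈ T, |c i|) * (2 * J) / η :=
    div_nonneg (mul_nonneg (sum_nonneg fun i _ => abs_nonneg _) (by positivity)) hη.le
  have hL1 : 1 ≤ L := by
    by_contra h0
    simp only [not_le, Nat.lt_one_iff] at h0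
    subst h0
    simp at hL
    linarith
  refine (main L hL1).trans (add_le_add le_rfl ?_)
  have hLpos : (0:ℝ) < L := by exact_mod_cast hL1
  rw [div_le_iff₀ hLpos]
  rw [div_lt_iff₀ hη] at hL
  linarith

theorem IsSpreadNorm.interval_norm_le (h : IsSpreadNorm N C) (c : ℕ →₀ ℝ) (lo hi : ℕ) :
    N (c.filter (fun u => lo ≤ u ∧ u < hi)) ≤ 2 * (1 + 2 * C) * N c := by
  classical
  by_cases hl : lo ≤ hi
  · have : c.filter (fun u => lo ≤ u ∧ u < hi) =
        c.filter (fun u => u < hi) - c.filter (fun u => u < lo) := by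
      ext u
      simp only [Finsupp.sub_apply, Finsupp.filter_apply]
      by_cases h1 : u < lo
      · rw [if_neg (by omega), if_pos (by omega), if_pos h1, sub_self]
      · by_cases h2 : u < hi
        · rw [if_pos ⟨by omega, h2⟩, if_pos h2, if_neg h1, sub_zero]
        · rw [if_neg (by omega), if_neg h2, if_neg h1, sub_zero]
    rw [this]
    refine (map_sub_le_add N _ _).trans ?_
    linarith [h.prefix_norm_le c hi, h.prefix_norm_le c lo]
  · have : c.filter (fun u => lo ≤ u ∧ u < hi) = 0 := by
      ext u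
      simp only [Finsupp.filter_apply, Finsupp.zero_apply]
      split_ifs <;> (try rfl)
      omega
    rw [this, map_zero]
    have := h.one_le
    exact mul_nonneg (by linarith) (apply_nonneg N c)

lemma toR_pat_apply (m r i : ℕ) :
    toR (pat m r) i = if i < 2 * m * r then (if i / m % 2 = 0 then 1 else -1) else 0 := by
  rw [toR_apply, pat_apply]
  split_ifs <;> simp

lemma IsSpreadNorm.pat_add_le (h : IsSpreadNorm N C) (m a b : ℕ) :
    N (toR (pat m (a + b))) ≤ N (toR (pat m a)) + N (toR (pat m b)) := by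
  rw [pat_add, toR_add, toR_mapDomain]
  refine (map_add_le_add N _ _).trans (le_of_eq ?_)
  rw [h.spread _ (fun x y hxy => Nat.add_lt_add_right hxy _)]

lemma IsSpreadNorm.pat_mul_le (h : IsSpreadNorm N C) (m r : ℕ) :
    ∀ k : ℕ, N (toR (pat m (k * r))) ≤ k * N (toR (pat m r)) := by
  intro k
  induction k with
  | zero => simp [pat, toR_zero]
  | succ k ih =>
    rw [Nat.succ_mul]
    refine (h.pat_add_le m _ _).trans ?_
    push_cast
    linarith

lemma IsSpreadNorm.pat_mono (h : IsSpreadNorm N C) (m a b : ℕ) (hab : a ≤ b) :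
    N (toR (pat m a)) ≤ (1 + 2 * C) * N (toR (pat m b)) := by
  have : toR (pat m a) = (toR (pat m b)).filter (fun i => i < 2 * m * a) := by
    ext i
    rw [Finsupp.filter_apply, toR_pat_apply, toR_pat_apply]
    have : 2 * m * a ≤ 2 * m * b := Nat.mul_le_mul_left _ hab
    split_ifs <;> first | rfl | omega
  rw [this]
  exact h.prefix_norm_le _ _

lemma IsSpreadNorm.pat_upper (h : IsSpreadNorm N C) (m r : ℕ) :
    N (toR (pat m r)) ≤ 2 * m * r := by
  classical
  rw [pat, toR_sum]
  refine (Finset.le_sum_of_subadditive N (map_zero N).le (map_add_le_add N) _ _).trans ?_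
  refine (Finset.sum_le_sum (g := fun _ => (1:ℝ)) (fun i _ => ?_)).trans (le_of_eq ?_)
  · have : ∀ z : ℤ, toR (Finsupp.single i z) = Finsupp.single i (z : ℝ) := by
      intro z; simp [toR]
    rw [this]
    refine (h.single_le' i _).trans ?_
    split <;> simp
  · simp

lemma IsSpreadNorm.pat_lower (h : IsSpreadNorm N C) (m r : ℕ) (hr : 1 ≤ r) :
    (m : ℝ) ≤ C * N (toR (pat m r)) := by
  have h1 := h.prefix_le (toR (pat m r)) m
  have hs : ∑ i ∈ range m, toR (pat m r) i = m := by
    rw [Finset.sum_congr rfl (g := fun _ => (1:ℝ)) (fun i hi => ?_)]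
    · simp
    · simp only [mem_range] at hi
      rw [toR_pat_apply, if_pos (by nlinarith), if_pos (by rw [Nat.div_eq_of_lt hi])]
  rw [hs, abs_of_nonneg (Nat.cast_nonneg m)] at h1
  exact h1

/-- Some inflation by `n` loses at most half. -/
theorem IsSpreadNorm.exists_good_scale (h : IsSpreadNorm N C) (n : ℕ) (hn : 1 ≤ n) :
    ∃ m : ℕ, 1 ≤ m ∧
      (n : ℝ) / 2 * N (toR (pat m n)) ≤ N (toR (pat (n * m) n)) := by
  by_contra hcon
  push Not at hcon
  have hstep : ∀ j : ℕ, N (toR (pat (n ^ j) n)) ≤ ((n : ℝ) / 2) ^ j * (2 * n) := by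
    intro j
    induction j with
    | zero => simpa using (h.pat_upper 1 n).trans (by simp)
    | succ j ih =>
      rw [pow_succ' n j]
      refine (hcon (n ^ j) (Nat.one_le_pow _ _ hn)).le.trans ?_
      rw [pow_succ' ((n:ℝ) / 2) j, mul_assoc]
      gcongr
  obtain ⟨j, hj⟩ := pow_unbounded_of_one_lt (2 * n * C) (one_lt_two : (1:ℝ) < 2)
  have h1 := h.pat_lower (n ^ j) n hn
  push_cast at h1
  have h2 := mul_le_mul_of_nonneg_left (hstep j) (zero_le_one.trans h.one_le)
  have h3 : (0:ℝ) < (n:ℝ) ^ j := by positivity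
  rw [div_pow] at h2
  have h4 : (n:ℝ) ^ j * 2 ^ j ≤ (n:ℝ) ^ j * (2 * n * C) := by
    have := h1.trans h2
    field_simp at this
    linarith
  have := le_of_mul_le_mul_left h4 h3
  linarith

end Norm

end Vale.Agent.P125
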