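import Mathlib
import Vale.Agent.P125.Defs

/-!
P125, module 1: laws on increasing tuples whose subtuple laws are almost equal.

Explicit recursion on the size `M` of the subtuples: given a tuple `w'` good for `M`, put
`w i = U + r i + (Z i % r i)` with `r i = A ^ (w' i + 1)`, `U` uniform in a much larger range and
`Z i` uniform in `[0, A ^ (B + 1))`. For a subtuple `i₀ < i₁ < ⋯ < i_M` the first entry is absorbed
by `U`, and its size is negligible against the ranges of the other gaps, so up to `O(M / A)` the law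
of the subtuple is a fixed function of the law of `(w' i₁, …, w' i_M)`.
-/

namespace Vale.Agent.P125

namespace SpreadLaw

open Finset

/-- Uniform average over a finite type. -/
noncomputable def avg {α : Type} [Fintype α] (f : α → ℝ) : ℝ := (∑ a, f a) / Fintype.card α

variable {α β : Type} [Fintype α] [Fintype β]

lemma avg_mono {f g : α → ℝ} (h : ∀ a, f a ≤ g a) : avg f ≤ avg g :=
  div_le_div_of_nonneg_right (Finset.sum_le_sum fun a _ => h a) (Nat.cast_nonneg _)

lemma avg_sub (f g : α → ℝ) : avg f - avg g = avg fun a => f a - g a := by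
  simp [avg, Finset.sum_sub_distrib, sub_div]

lemma avg_add (f g : α → ℝ) : avg (fun a => f a + g a) = avg f + avg g := by
  simp [avg, Finset.sum_add_distrib, add_div]

lemma avg_mul (c : ℝ) (f : α → ℝ) : avg (fun a => c * f a) = c * avg f := by
  simp [avg, ← Finset.mul_sum, mul_div_assoc]

lemma avg_const [Nonempty α] (c : ℝ) : avg (fun _ : α => c) = c := by
  simp [avg]

lemma abs_avg_le [Nonempty α] {f : α → ℝ} {c : ℝ} (h : ∀ a, |f a| ≤ c) : |avg f| ≤ c := by
  rw [abs_le]
  constructor
  · calc -c = avg (fun _ : α => -c) := (avg_const _).symm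
      _ ≤ avg f := avg_mono fun a => (abs_le.1 (h a)).1
  · calc avg f ≤ avg (fun _ : α => c) := avg_mono fun a => (abs_le.1 (h a)).2
      _ = c := avg_const _

lemma abs_avg_sub_le (f g h : α → ℝ) (H : ∀ a, |f a - g a| ≤ h a) :
    |avg f - avg g| ≤ avg h := by
  rw [avg_sub, abs_le]
  constructor
  · have := avg_mono (f := fun a => (-1 : ℝ) * h a) (g := fun a => f a - g a)
      fun a => by simpa using (abs_le.1 (H a)).1
    rw [avg_mul] at this
    linarith
  · exact avg_mono fun a => (abs_le.1 (H a)).2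

lemma avg_equiv (e : α ≃ β) (f : β → ℝ) : avg (fun a => f (e a)) = avg f := by
  simp only [avg, Fintype.card_congr e, Equiv.sum_comp e f]

lemma avg_prod (f : α × β → ℝ) : avg f = avg fun a => avg fun b => f (a, b) := by
  simp only [avg, Fintype.sum_prod_type, Fintype.card_prod, Nat.cast_mul, ← Finset.sum_div]
  rw [div_div, mul_comm (Fintype.card α : ℝ)]

lemma avg_comm (f : α → β → ℝ) :
    (avg fun a => avg fun b => f a b) = avg fun b => avg fun a => f a b := by
  simp only [avg, ← Finset.sum_div, div_div]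
  rw [Finset.sum_comm, mul_comm (Fintype.card α : ℝ)]

/-- The marginal of a uniform function along an injection is uniform. -/
lemma avg_marginal {I J : Type} [Fintype I] [Fintype J] [DecidableEq I] [DecidableEq J]
    {R : ℕ} [NeZero R] (ι : J → I) (hι : Function.Injective ι) (f : (J → Fin R) → ℝ) :
    (avg fun Z : I → Fin R => f fun j => Z (ι j)) = avg f := by
  have h : ∀ Y : J → Fin R,
      (avg fun Z : I → Fin R => f fun j => Z (ι j)) =
        avg fun Z : I → Fin R => f fun j => Z (ι j) + Y j := by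
    intro Y
    rw [← avg_equiv (Equiv.addRight (Function.extend ι Y 0))
      (fun Z : I → Fin R => f fun j => Z (ι j))]
    congr 1
    funext Z
    congr 1
    funext j
    simp [hι.extend_apply]
  calc (avg fun Z : I → Fin R => f fun j => Z (ι j))
      = avg fun _ : J → Fin R => avg fun Z : I → Fin R => f fun j => Z (ι j) := (avg_const _).symm
    _ = avg fun Y : J → Fin R => avg fun Z : I → Fin R => f fun j => Z (ι j) + Y j := by
        congr 1
        funext Y
        exact h Y
    _ = avg fun Z : I → Fin R => avg fun Y : J → Fin R => f fun j => Z (ι j) + Y j := avg_comm _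
    _ = avg fun _ : I → Fin R => avg f := by
        congr 1
        funext Z
        exact avg_equiv (Equiv.addLeft (fun j => Z (ι j))) f
    _ = avg f := avg_const _

/-- At most a fraction `c / r` of `[0, R)` is below `c` modulo a divisor `r` of `R`. -/
lemma avg_mod_lt {R r c : ℕ} (hR : 0 < R) (hr : r ∣ R) :
    (avg fun z : Fin R => if (z : ℕ) % r < c then (1 : ℝ) else 0) ≤ (c : ℝ) / r := by
  classical
  obtain ⟨q, rfl⟩ := hr
  have hr0 : 0 < r := (Nat.mul_pos_iff_of_pos_right (Nat.pos_of_ne_zero (by rintro rfl; simp at hR))).1 hR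
  have hcard : (Finset.univ.filter fun z : Fin (r * q) => (z : ℕ) % r < c).card ≤ q * c := by
    have := Finset.card_le_card_of_injOn (fun z : Fin (r * q) => ((z : ℕ) / r, (z : ℕ) % r))
      (s := Finset.univ.filter fun z : Fin (r * q) => (z : ℕ) % r < c)
      (t := Finset.range q ×ˢ Finset.range c)
      (by
        intro z hz
        simp only [Finset.coe_filter, Finset.mem_univ, true_and, Set.mem_ofPred_eq] at hz
        simp only [Finset.coe_product, Finset.coe_range, Set.mem_prod, Set.mem_Iio]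
        exact ⟨Nat.div_lt_of_lt_mul z.2, hz⟩)
      (by
        intro y _ z _ hyz
        simp only [Prod.mk.injEq] at hyz
        apply Fin.ext
        rw [← Nat.div_add_mod (y : ℕ) r, hyz.1, hyz.2, Nat.div_add_mod])
    simpa using this
  rw [avg, Finset.sum_boole, Fintype.card_fin, div_le_div_iff₀ (by positivity) (by positivity)]
  calc ((Finset.univ.filter fun z : Fin (r * q) => (z : ℕ) % r < c).card : ℝ) * r
      ≤ ((q * c : ℕ) : ℝ) * r := by gcongr
    _ = (c : ℝ) * ((r * q : ℕ) : ℝ) := by push_cast; ring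

/-- A finite uniform space of increasing `k`-tuples whose `M`-subtuples have `ε`-close laws. -/
def Good (k M : ℕ) (ε : ℝ) : Prop :=
  ∃ (Ω : Type) (_ : Fintype Ω) (_ : Nonempty Ω) (W : Ω → Fin k → ℕ),
    (∀ ω, StrictMono (W ω)) ∧
    ∀ ι ι' : Fin M → Fin k, StrictMono ι → StrictMono ι' →
      ∀ φ : (Fin M → ℕ) → ℝ, (∀ v, |φ v| ≤ 1) →
        |(avg fun ω => φ (W ω ∘ ι)) - avg fun ω => φ (W ω ∘ ι')| ≤ ε

section Step

variable {k M A B : ℕ}

/-- The entries built from `w'`: `U + r i + Z i % r i`. -/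
def tuple {R N : ℕ} (A : ℕ) (w' : Fin k → ℕ) (p : Fin N × (Fin k → Fin R)) (i : Fin k) : ℕ :=
  (p.1 : ℕ) + (A ^ (w' i + 1) + (p.2 i : ℕ) % A ^ (w' i + 1))

lemma strictMono_tuple {R N : ℕ} (hA : 2 ≤ A) {w' : Fin k → ℕ} (hw : StrictMono w')
    (p : Fin N × (Fin k → Fin R)) : StrictMono (tuple A w' p) := by
  intro i j hij
  unfold tuple
  have h1 : A ^ (w' i + 1) * 2 ≤ A ^ (w' j + 1) := by
    calc A ^ (w' i + 1) * 2 ≤ A ^ (w' i + 1) * A := Nat.mul_le_mul_left _ hA
      _ = A ^ (w' i + 1 + 1) := (pow_succ _ _).symm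
      _ ≤ A ^ (w' j + 1) := Nat.pow_le_pow_right (by omega) (by have := hw hij; omega)
  have h2 := Nat.mod_lt (p.2 i : ℕ) (pow_pos (show 0 < A by omega) (w' i + 1))
  generalize (p.2 i : ℕ) % A ^ (w' i + 1) = x at *
  generalize (p.2 j : ℕ) % A ^ (w' j + 1) = y
  omega

/-- The limiting law of a subtuple, as a function of the last `M` entries of `w'`. -/
noncomputable def limitLaw (A R N : ℕ) (φ : (Fin (M + 1) → ℕ) → ℝ) (v : Fin M → ℕ) : ℝ :=
  avg fun q : Fin N × (Fin M → Fin R) =>
    φ (Fin.cons (q.1 : ℕ) fun j => (q.1 : ℕ) + (A ^ (v j + 1) + (q.2 j : ℕ) % A ^ (v j + 1)))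

lemma inner {R N : ℕ} [NeZero R] [NeZero N] (hA : 2 ≤ A) (hR : R = A ^ (B + 1))
    (hN : N = 2 * R * A) {w' : Fin k → ℕ} (hw : StrictMono w') (hB : ∀ i, w' i ≤ B)
    {ι : Fin (M + 1) → Fin k} (hι : StrictMono ι) {φ : (Fin (M + 1) → ℕ) → ℝ}
    (hφ : ∀ v, |φ v| ≤ 1) :
    |(avg fun p : Fin N × (Fin k → Fin R) => φ (tuple A w' p ∘ ι)) -
        limitLaw A R N φ (fun j => w' (ι j.succ))| ≤ 2 * ((2 * M + 1) / A) := by
  classical
  set r : Fin k → ℕ := fun i => A ^ (w' i + 1) with hr
  have hA0 : 0 < A := by omega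
  have hr0 : ∀ i, 0 < r i := fun i => pow_pos hA0 _
  have hrR : ∀ i, r i ∣ R := fun i => hR ▸ pow_dvd_pow A (by have := hB i; omega)
  have hR0 : 0 < R := Nat.pos_of_ne_zero (NeZero.ne R)
  set i₀ := ι 0 with hi₀
  let X : (Fin k → Fin R) → ℕ := fun Z => r i₀ + (Z i₀ : ℕ) % r i₀
  have hX : ∀ Z, X Z < 2 * r i₀ := fun Z => by
    have := Nat.mod_lt (Z i₀ : ℕ) (hr0 i₀)
    simp only [X]; omega
  have hrle : ∀ i, r i ≤ R := fun i => Nat.le_of_dvd hR0 (hrR i)
  have hsmall : ∀ j : Fin M, r i₀ * A ≤ r (ι j.succ) := by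
    intro j
    simp only [hr, ← pow_succ]
    apply Nat.pow_le_pow_right hA0
    have := hw (hι (Fin.succ_pos j))
    simp only [← hi₀] at this
    omega
  -- the bijection absorbing the first entry
  let shiftZ : (Fin k → Fin R) → (Fin k → Fin R) := fun Z i =>
    if i = i₀ then Z i else Z i - Fin.ofNat R (X Z)
  let shiftZ' : (Fin k → Fin R) → (Fin k → Fin R) := fun Z i =>
    if i = i₀ then Z i else Z i + Fin.ofNat R (X Z)
  have hX₁ : ∀ Z, X (shiftZ Z) = X Z := fun Z => by simp [X, shiftZ]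
  have hX₂ : ∀ Z, X (shiftZ' Z) = X Z := fun Z => by simp [X, shiftZ']
  let τ : Fin N × (Fin k → Fin R) ≃ Fin N × (Fin k → Fin R) :=
    { toFun := fun p => (p.1 + Fin.ofNat N (X p.2), shiftZ p.2)
      invFun := fun p => (p.1 - Fin.ofNat N (X p.2), shiftZ' p.2)
      left_inv := fun p => by
        refine Prod.ext ?_ (funext fun i => ?_)
        · simp [hX₁]
        · by_cases hi : i = i₀
          · simp [shiftZ, shiftZ', hi]
          · simp only [shiftZ', hX₁]
            simp [shiftZ, hi]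
      right_inv := fun p => by
        refine Prod.ext ?_ (funext fun i => ?_)
        · simp [hX₂]
        · by_cases hi : i = i₀
          · simp [shiftZ, shiftZ', hi]
          · simp only [shiftZ, hX₂]
            simp [shiftZ', hi] }
  let Ψ : Fin N × (Fin k → Fin R) → ℝ := fun p =>
    φ (Fin.cons (p.1 : ℕ) fun j => (p.1 : ℕ) + (r (ι j.succ) + (p.2 (ι j.succ) : ℕ) % r (ι j.succ)))
  have hinj : Function.Injective fun j : Fin M => ι j.succ :=
    hι.injective.comp (Fin.succ_injective M)
  have hΨ : avg Ψ = limitLaw A R N φ (fun j => w' (ι j.succ)) := by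
    rw [limitLaw, avg_prod, avg_prod]
    congr 1
    funext U
    exact avg_marginal (fun j : Fin M => ι j.succ) hinj (fun Y : Fin M → Fin R =>
      φ (Fin.cons (U : ℕ) fun j => (U : ℕ) + (r (ι j.succ) + (Y j : ℕ) % r (ι j.succ))))
  let bad : Fin N × (Fin k → Fin R) → ℝ := fun p =>
    2 * ((if N ≤ (p.1 : ℕ) + X p.2 then (1 : ℝ) else 0) +
      ∑ j : Fin M, if (p.2 (ι j.succ) : ℕ) % r (ι j.succ) < 2 * r i₀ then (1 : ℝ) else 0)
  have hpt : ∀ p, |φ (tuple A w' p ∘ ι) - Ψ (τ p)| ≤ bad p := by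
    intro p
    have h2 : |φ (tuple A w' p ∘ ι) - Ψ (τ p)| ≤ 2 := by
      have := abs_sub (φ (tuple A w' p ∘ ι)) (Ψ (τ p))
      have := hφ (tuple A w' p ∘ ι)
      have : |Ψ (τ p)| ≤ 1 := hφ _
      linarith
    have hnn : ∀ j : Fin M, (0 : ℝ) ≤
        if (p.2 (ι j.succ) : ℕ) % r (ι j.succ) < 2 * r i₀ then (1 : ℝ) else 0 := fun j => by
      split_ifs <;> norm_num
    have hnn' : (0 : ℝ) ≤ if N ≤ (p.1 : ℕ) + X p.2 then (1 : ℝ) else 0 := by
      split_ifs <;> norm_num
    have hsum := Finset.sum_nonneg (s := Finset.univ) fun j _ => hnn j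
    by_cases h : N ≤ (p.1 : ℕ) + X p.2
    · simp only [bad, if_pos h]
      linarith
    by_cases h' : ∃ j : Fin M, (p.2 (ι j.succ) : ℕ) % r (ι j.succ) < 2 * r i₀
    · obtain ⟨j, hj⟩ := h'
      have := Finset.single_le_sum (fun j _ => hnn j) (Finset.mem_univ j)
      rw [if_pos hj] at this
      simp only [bad]
      linarith
    push Not at h h'
    suffices e : tuple A w' p ∘ ι = Fin.cons ((τ p).1 : ℕ) (fun j => ((τ p).1 : ℕ) +
        (r (ι j.succ) + ((τ p).2 (ι j.succ) : ℕ) % r (ι j.succ))) by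
      simp only [Ψ, ← e, sub_self, abs_zero, bad]
      linarith
    have hXN : X p.2 < N := lt_of_le_of_lt (Nat.le_add_left _ _) h
    have hU : ((τ p).1 : ℕ) = p.1 + X p.2 := by
      simp only [τ, Equiv.coe_fn_mk, Fin.val_add, Fin.val_ofNat, Nat.mod_eq_of_lt hXN]
      exact Nat.mod_eq_of_lt h
    funext j
    refine Fin.cases ?_ (fun j => ?_) j
    · rw [Fin.cons_zero, hU]
      rfl
    · rw [Fin.cons_succ, hU]
      have hne : ι j.succ ≠ i₀ := fun e => Fin.succ_ne_zero j (hι.injective e)
      have hle : X p.2 ≤ (p.2 (ι j.succ) : ℕ) % r (ι j.succ) := (hX _).le.trans (h' j)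
      have hXr : X p.2 < r (ι j.succ) := hle.trans_lt (Nat.mod_lt _ (hr0 _))
      have hXR : X p.2 < R := hXr.trans_le (hrle _)
      have hval : ((τ p).2 (ι j.succ) : ℕ) = (p.2 (ι j.succ) : ℕ) - X p.2 := by
        simp only [τ, Equiv.coe_fn_mk, shiftZ, if_neg hne]
        have hle' : Fin.ofNat R (X p.2) ≤ p.2 (ι j.succ) := by
          rw [Fin.le_def, Fin.val_ofNat, Nat.mod_eq_of_lt hXR]
          exact hle.trans (Nat.mod_le _ _)
        rw [Fin.sub_val_of_le hle', Fin.val_ofNat, Nat.mod_eq_of_lt hXR]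
      have hmod : ((p.2 (ι j.succ) : ℕ) - X p.2) % r (ι j.succ) =
          (p.2 (ι j.succ) : ℕ) % r (ι j.succ) - X p.2 := by
        have hdm := Nat.div_add_mod (p.2 (ι j.succ) : ℕ) (r (ι j.succ))
        have hlt := Nat.mod_lt (p.2 (ι j.succ) : ℕ) (hr0 (ι j.succ))
        rw [show (p.2 (ι j.succ) : ℕ) - X p.2 = ((p.2 (ι j.succ) : ℕ) % r (ι j.succ) - X p.2) +
          r (ι j.succ) * ((p.2 (ι j.succ) : ℕ) / r (ι j.succ)) by omega,
          Nat.add_mul_mod_self_left, Nat.mod_eq_of_lt (by omega)]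
      rw [hval, hmod]
      simp only [Function.comp, tuple, hr] at hle ⊢
      omega
  have hbad : avg bad ≤ 2 * ((2 * M + 1) / A) := by
    simp only [bad]
    rw [avg_mul]
    gcongr
    rw [avg_add, add_div, add_comm (2 * (M : ℝ) / A)]
    apply add_le_add
    · calc (avg fun p : Fin N × (Fin k → Fin R) =>
            if N ≤ (p.1 : ℕ) + X p.2 then (1 : ℝ) else 0)
          = avg fun Z : Fin k → Fin R => avg fun U : Fin N =>
              if N ≤ (U : ℕ) + X Z then (1 : ℝ) else 0 := by rw [avg_prod, avg_comm]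
        _ ≤ avg fun _ : Fin k → Fin R => (1 / A : ℝ) := avg_mono fun Z => by
            rw [avg, Finset.sum_boole, Fintype.card_fin]
            have hc : (Finset.univ.filter fun U : Fin N => N ≤ (U : ℕ) + X Z).card ≤ X Z := by
              have := Finset.card_le_card_of_injOn (fun U : Fin N => N - 1 - (U : ℕ))
                (s := Finset.univ.filter fun U : Fin N => N ≤ (U : ℕ) + X Z)
                (t := Finset.range (X Z))
                (by
                  intro U hU
                  simp only [Finset.coe_filter, Finset.mem_univ, true_and,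
                    Set.mem_ofPred_eq] at hU
                  simp only [Finset.coe_range, Set.mem_Iio]
                  omega)
                (by
                  intro U _ V _ hUV
                  apply Fin.ext
                  simp only at hUV
                  omega)
              simpa using this
            have hX2 : X Z * A ≤ N := by
              rw [hN]
              exact Nat.mul_le_mul_right _ ((hX Z).le.trans (Nat.mul_le_mul_left _ (hrle _)))
            rw [div_le_div_iff₀ (by exact_mod_cast Nat.pos_of_ne_zero (NeZero.ne N))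
              (by exact_mod_cast hA0), one_mul]
            calc ((Finset.univ.filter fun U : Fin N => N ≤ (U : ℕ) + X Z).card : ℝ) * A
                ≤ (X Z : ℝ) * A := by gcongr
              _ ≤ N := by exact_mod_cast hX2
        _ = 1 / A := avg_const _
    · calc (avg fun p : Fin N × (Fin k → Fin R) => ∑ j : Fin M,
            if (p.2 (ι j.succ) : ℕ) % r (ι j.succ) < 2 * r i₀ then (1 : ℝ) else 0)
          = ∑ j : Fin M, avg fun p : Fin N × (Fin k → Fin R) =>
              if (p.2 (ι j.succ) : ℕ) % r (ι j.succ) < 2 * r i₀ then (1 : ℝ) else 0 := by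
            simp only [avg]
            rw [Finset.sum_comm, Finset.sum_div]
        _ ≤ ∑ _j : Fin M, (2 / A : ℝ) := by
            apply Finset.sum_le_sum
            intro j _
            rw [avg_prod]
            dsimp only
            refine le_trans (le_of_eq (avg_const (α := Fin N) (avg fun Z : Fin k → Fin R =>
              if (Z (ι j.succ) : ℕ) % r (ι j.succ) < 2 * r i₀ then (1 : ℝ) else 0))) ?_
            refine le_trans (le_of_eq ?_) ((avg_mod_lt (c := 2 * r i₀) hR0
              (hrR (ι j.succ))).trans ?_)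
            · exact (avg_marginal (fun _ : Unit => ι j.succ) (fun _ _ _ => rfl)
                (fun Y : Unit → Fin R =>
                  if (Y () : ℕ) % r (ι j.succ) < 2 * r i₀ then (1 : ℝ) else 0)).trans
                (avg_equiv (Equiv.funUnique Unit (Fin R))
                  (fun z : Fin R => if (z : ℕ) % r (ι j.succ) < 2 * r i₀ then (1 : ℝ) else 0))
            · rw [div_le_div_iff₀ (by exact_mod_cast hr0 _) (by exact_mod_cast hA0)]
              have := hsmall j
              calc ((2 * r i₀ : ℕ) : ℝ) * A = 2 * ((r i₀ * A : ℕ) : ℝ) := by push_cast; ring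
                _ ≤ 2 * (r (ι j.succ) : ℝ) := by gcongr
        _ = 2 * M / A := by simp; ring
  calc |(avg fun p : Fin N × (Fin k → Fin R) => φ (tuple A w' p ∘ ι)) -
        limitLaw A R N φ (fun j => w' (ι j.succ))|
      = |(avg fun p : Fin N × (Fin k → Fin R) => φ (tuple A w' p ∘ ι)) -
          avg fun p => Ψ (τ p)| := by rw [avg_equiv τ Ψ, hΨ]
    _ ≤ avg bad := abs_avg_sub_le _ _ _ hpt
    _ ≤ _ := hbad

end Step

lemma good (k : ℕ) : ∀ (M : ℕ) (ε : ℝ), 0 < ε → Good k M ε := by
  intro M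
  induction M with
  | zero =>
    intro ε hε
    refine ⟨Unit, inferInstance, inferInstance, fun _ i => (i : ℕ),
      fun _ => fun i j hij => hij, fun ι ι' _ _ φ _ => ?_⟩
    rw [show ι' = ι from funext fun i => i.elim0, sub_self, abs_zero]
    exact hε.le
  | succ M ih =>
    intro ε hε
    classical
    obtain ⟨Ω, hΩ, hne, W', hmono, hW⟩ := ih (ε / 2) (by positivity)
    obtain ⟨A, hA⟩ := exists_nat_gt (max 2 (8 * (2 * (M : ℝ) + 1) / ε))
    have hA2 : 2 ≤ A := by
      have : (2 : ℝ) < A := lt_of_le_of_lt (le_max_left _ _) hA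
      exact_mod_cast this.le
    obtain ⟨B, hB⟩ : ∃ B, ∀ ω i, W' ω i ≤ B :=
      ⟨∑ ω, ∑ i, W' ω i, fun ω i => (Finset.single_le_sum (fun i _ => Nat.zero_le (W' ω i))
        (Finset.mem_univ i)).trans (Finset.single_le_sum (f := fun ω => ∑ i, W' ω i)
          (fun ω _ => Nat.zero_le _) (Finset.mem_univ ω))⟩
    set R := A ^ (B + 1) with hR
    set N := 2 * R * A with hN
    have : NeZero R := ⟨by positivity⟩
    have : NeZero N := ⟨by positivity⟩
    refine ⟨Ω × (Fin N × (Fin k → Fin R)), inferInstance, inferInstance,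
      fun q => tuple A (W' q.1) q.2, fun q => strictMono_tuple hA2 (hmono _) _,
      fun ι ι' hι hι' φ hφ => ?_⟩
    let F : (Fin M → ℕ) → ℝ := limitLaw A R N φ
    have hδ : 2 * ((2 * (M : ℝ) + 1) / A) ≤ ε / 4 := by
      have h1 : 8 * (2 * (M : ℝ) + 1) / ε < A := lt_of_le_of_lt (le_max_right _ _) hA
      rw [div_lt_iff₀ hε] at h1
      rw [← mul_div_assoc, div_le_iff₀ (by positivity)]
      linarith
    have key : ∀ ι : Fin (M + 1) → Fin k, StrictMono ι →
        |(avg fun q : Ω × (Fin N × (Fin k → Fin R)) => φ (tuple A (W' q.1) q.2 ∘ ι)) -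
          avg fun ω => F (W' ω ∘ fun j => ι j.succ)| ≤ ε / 4 := by
      intro ι hι
      rw [avg_prod, avg_sub]
      exact abs_avg_le fun ω => (inner hA2 hR hN (hmono ω) (hB ω) hι hφ).trans hδ
    have h1 := key ι hι
    have h2 := key ι' hι'
    have h3 := hW (fun j => ι j.succ) (fun j => ι' j.succ) (hι.comp Fin.strictMono_succ)
      (hι'.comp Fin.strictMono_succ) F (fun v => abs_avg_le fun q => hφ _)
    rw [abs_le] at h1 h2 h3 ⊢
    constructor <;> linarith

end SpreadLaw

open SpreadLaw in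
theorem exists_spread_law (k M : ℕ) (ε : ℝ) (hε : 0 < ε) :
    ∃ (s : Finset (Fin k → ℕ)) (μ : (Fin k → ℕ) → ℝ),
      (∀ w, 0 ≤ μ w) ∧ (∑ w ∈ s, μ w) = 1 ∧ (∀ w ∈ s, StrictMono w) ∧
      ∀ ι ι' : Fin M → Fin k, StrictMono ι → StrictMono ι' →
        ∀ φ : (Fin M → ℕ) → ℝ, (∀ v, |φ v| ≤ 1) →
          |(∑ w ∈ s, μ w * φ (w ∘ ι)) - ∑ w ∈ s, μ w * φ (w ∘ ι')| ≤ ε := by
  classical
  obtain ⟨Ω, hΩ, hne, W, hmono, hW⟩ := good k M ε hε
  let μ : (Fin k → ℕ) → ℝ := fun w => avg fun ω => if W ω = w then (1 : ℝ) else 0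
  have hint : ∀ g : (Fin k → ℕ) → ℝ,
      (∑ w ∈ Finset.univ.image W, μ w * g w) = avg fun ω => g (W ω) := by
    intro g
    simp only [μ, avg, div_mul_eq_mul_div, ← Finset.sum_div, Finset.sum_mul]
    rw [Finset.sum_comm]
    congr 1
    refine Finset.sum_congr rfl fun ω _ => ?_
    simp [ite_mul]
  refine ⟨Finset.univ.image W, μ, fun w => ?_, ?_, ?_, fun ι ι' hι hι' φ hφ => ?_⟩
  · exact div_nonneg (Finset.sum_nonneg fun ω _ => by split_ifs <;> norm_num) (Nat.cast_nonneg _)
  · simpa using (hint fun _ => 1).trans (avg_const 1)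
  · intro w hw
    obtain ⟨ω, -, rfl⟩ := Finset.mem_image.1 hw
    exact hmono ω
  · rw [hint fun w => φ (w ∘ ι), hint fun w => φ (w ∘ ι')]
    exact hW ι ι' hι hι' φ hφ

end Vale.Agent.P125
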