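import Mathlib
import Vale.Agent.P125.ChainDefs
import Vale.Agent.P125.SpreadLaw
import Vale.Agent.P125.Nesting
import Vale.Agent.P125.PatternNorm
import Vale.Agent.P125.PathEstimate

/-!
P125: a spreading seminorm with bounded prefix sums has no nontrivial Markov type.
-/

namespace Vale.Agent.P125

open Finset

lemma sum_range_blocks {β : Type*} [AddCommMonoid β] (f : ℕ → β) (m : ℕ) :
    ∀ L : ℕ, ∑ i ∈ range (L * m), f i = ∑ l ∈ range L, ∑ j ∈ range m, f (l * m + j) := by
  intro L
  induction L with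
  | zero => simp
  | succ L ih => rw [Nat.succ_mul, sum_range_add, ih, sum_range_succ]

lemma blockIdx_lt (B m : ℕ) (hmB : m ≤ B) {i k : ℕ} (hik : i < k) (hm : 1 ≤ m) :
    i / m * B + i % m < k / m * B + k % m := by
  have h1 : i / m ≤ k / m := Nat.div_le_div_right hik.le
  rcases h1.lt_or_eq with h | h
  · have h2 : i % m < m := Nat.mod_lt _ hm
    have h3 : (i / m + 1) * B ≤ k / m * B := Nat.mul_le_mul_right _ h
    rw [Nat.succ_mul] at h3
    omega
  · rw [h]
    have e1 := Nat.div_add_mod i m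
    have e2 := Nat.div_add_mod k m
    rw [h] at e1
    omega

lemma blockIdx_bound (B m R : ℕ) (hm : 1 ≤ m) (hmB : m ≤ B) {i : ℕ}
    (hi : i < 2 * m * R) : i / m * B + i % m < 2 * R * B := by
  have h2 : i % m < m := Nat.mod_lt _ hm
  have h3 : i / m < 2 * R := by
    rw [Nat.div_lt_iff_lt_mul hm]; linarith
  have h4 : (i / m + 1) * B ≤ 2 * R * B := Nat.mul_le_mul_right _ h3
  rw [Nat.succ_mul] at h4
  omega

lemma field_eq_pat (B m R : ℕ) (c : Bool) (w : ℕ → ℕ) (hm : 1 ≤ m) :
    field B m R c w = (if c then (1 : ℤ) else -1) •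
      (pat m (R + 2)).mapDomain (fun i => w (i / m * B + i % m)) := by
  classical
  rw [pat, Finsupp.mapDomain_finsetSum]
  rw [show 2 * m * (R + 2) = 2 * (R + 2) * m by ring, sum_range_blocks, Finset.smul_sum]
  refine Finset.sum_congr rfl (fun l _ => ?_)
  rw [Finset.smul_sum]
  refine Finset.sum_congr rfl (fun j hj => ?_)
  simp only [mem_range] at hj
  have e1 : (l * m + j) / m = l := by
    rw [mul_comm, Nat.mul_add_div hm, Nat.div_eq_of_lt hj, add_zero]
  have e2 : (l * m + j) % m = j := by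
    rw [mul_comm, Nat.mul_add_mod, Nat.mod_eq_of_lt hj]
  rw [Finsupp.mapDomain_single, e1, e2, Finsupp.smul_single]
  rcases Nat.mod_two_eq_zero_or_one l with h | h <;> cases c <;> simp [h, par]

lemma field_norm_le {N : Seminorm ℝ (ℕ →₀ ℝ)} {C : ℝ} (h : IsSpreadNorm N C) (n B m R : ℕ)
    (c : Bool) (w : ℕ → ℕ) (hm : 1 ≤ m) (hmB : m ≤ B) (hR : R + 2 ≤ 9 * n)
    (hw : StrictMonoOn w (Set.Iio (2 * (R + 2) * B))) :
    N (toR (field B m R c w)) ≤ 9 * (1 + 2 * C) * N (toR (pat m n)) := by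
  have hb : N (toR ((pat m (R + 2)).mapDomain (fun i => w (i / m * B + i % m)))) =
      N (toR (pat m (R + 2))) := by
    rw [toR_mapDomain]
    refine h.map_le _ _ (2 * m * (R + 2)) (fun i hi => ?_) ?_
    · refine pat_support m (R + 2) i ?_
      exact Finsupp.support_mapRange hi
    · intro i hi k hk hik
      exact hw (Set.mem_Iio.2 (blockIdx_bound B m _ hm hmB hi))
        (Set.mem_Iio.2 (blockIdx_bound B m _ hm hmB hk)) (blockIdx_lt B m hmB hik hm)
  have hle : N (toR (pat m (R + 2))) ≤ 9 * (1 + 2 * C) * N (toR (pat m n)) := by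
    refine (h.pat_mono m _ _ hR).trans ?_
    have := h.one_le
    refine (mul_le_mul_of_nonneg_left (h.pat_mul_le m n 9) (by linarith)).trans (le_of_eq ?_)
    push_cast
    ring
  rw [field_eq_pat B m R c w hm]
  cases c
  · simp only [Bool.false_eq_true, if_false, neg_smul, one_smul, toR_neg, map_neg_eq_map, hb]
    exact hle
  · simp only [if_true, one_smul, hb]
    exact hle

lemma stIdx_mono (B m a : ℕ) (c : Bool) {i k : ℕ} (hB : 1 ≤ B) (hik : i < k) :
    stIdx B m a c i < stIdx B m a c k := by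
  have h1 : (a * m + i) / B ≤ (a * m + k) / B := Nat.div_le_div_right (by omega)
  have h2 := Nat.mod_lt (a * m + i) hB
  rcases h1.lt_or_eq with h | h
  · have h3 : (2 * ((a * m + i) / B) + par c + 1) * B ≤
        (2 * ((a * m + k) / B) + par c) * B := Nat.mul_le_mul_right _ (by omega)
    rw [Nat.succ_mul] at h3
    unfold stIdx
    omega
  · have e1 := Nat.div_add_mod (a * m + i) B
    have e2 := Nat.div_add_mod (a * m + k) B
    rw [h] at e1
    unfold stIdx
    rw [h]
    omega

lemma stIdx_bound (D m R a : ℕ) (c : Bool) {i : ℕ} (hm : 1 ≤ m) (ha : a < D)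
    (hi : i < R * (D * m)) :
    stIdx (D * m) m a c i < 2 * (R + 2) * (D * m) := by
  have hB : 1 ≤ D * m := Nat.one_le_iff_ne_zero.2 (Nat.mul_ne_zero (by omega) (by omega))
  have h0 : a * m < D * m := Nat.mul_lt_mul_of_pos_right ha hm
  have h1 : (a * m + i) / (D * m) < R + 1 := by
    rw [Nat.div_lt_iff_lt_mul hB, Nat.succ_mul]
    omega
  have h2 := Nat.mod_lt (a * m + i) hB
  have h3 : (2 * ((a * m + i) / (D * m)) + par c + 1) * (D * m) ≤ 2 * (R + 2) * (D * m) := by
    refine Nat.mul_le_mul_right _ ?_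
    have : par c ≤ 1 := by cases c <;> simp [par]
    omega
  rw [Nat.succ_mul] at h3
  unfold stIdx
  omega

theorem no_spread {N : Seminorm ℝ (ℕ →₀ ℝ)} {C : ℝ} (h : IsSpreadNorm N C) (p K : ℝ)
    (hp : 1 < p) (hK : 0 ≤ K) : ¬ MTIneq (fun c => N c) p K := by
  classical
  intro hMT
  set C1 : ℝ := 2 * (1 + 2 * C) with hC1
  set C2 : ℝ := 9 * (1 + 2 * C) with hC2
  have hC : 1 ≤ C := h.one_le
  obtain ⟨n, hn1, hnb⟩ : ∃ n : ℕ, 1 ≤ n ∧ 4 * (2 * C1 * C2 * K) ^ p < (n : ℝ) ^ (p - 1) := by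
    have ht : Filter.Tendsto (fun n : ℕ => (n : ℝ) ^ (p - 1)) Filter.atTop Filter.atTop :=
      (tendsto_rpow_atTop (by linarith)).comp tendsto_natCast_atTop_atTop
    obtain ⟨n, hn⟩ := ((ht.eventually_gt_atTop _).and (Filter.eventually_ge_atTop 1)).exists
    exact ⟨n, hn.2, hn.1⟩
  obtain ⟨m, hm, hscale⟩ := h.exists_good_scale n hn1
  set D : ℕ := 4 * n with hD
  set R : ℕ := 3 * n + 4 with hR
  set B : ℕ := D * m with hB
  have hD1 : 1 ≤ D := by omega
  have hmB : m ≤ B := Nat.le_mul_of_pos_left m hD1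
  have hB1 : 1 ≤ B := le_trans hm hmB
  have hεpos : (0 : ℝ) < 1 / (4 * n) := by positivity
  obtain ⟨s, μ, hμ0, hμ1, hmono, hspread⟩ :=
    exists_spread_law (2 * (R + 2) * B) (R * B) (1 / (4 * n)) hεpos
  set s' := s.filter (fun w => μ w ≠ 0) with hs'
  have hμ1' : ∑ w ∈ s', μ w = 1 := by
    rw [hs', Finset.sum_filter_ne_zero]; exact hμ1
  have hext : ∀ (a : Fin D) (c : Bool),
      ∃ ι : Fin (R * B) → Fin (2 * (R + 2) * B), StrictMono ι ∧
        ∀ i, (ι i : ℕ) = stIdx B m a c i := by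
    intro a c
    exact ⟨fun i => ⟨stIdx B m a c i, stIdx_bound D m R a c hm a.2 i.2⟩,
      fun i k hik => stIdx_mono B m a c hB1 hik, fun i => rfl⟩
  choose ι hιm hιv using hext
  let Ed := {w // w ∈ s'} × Fin D × Fin D × Bool
  set st : Ed → (Fin (R * B) → ℕ) := fun e => e.1.1 ∘ ι e.2.1 e.2.2.2 with hst
  let V := {x // x ∈ (univ : Finset Ed).image st}
  set src : Ed → V := fun e => ⟨st e, mem_image_of_mem st (mem_univ e)⟩ with hsrc
  set rev : Ed → Ed := fun e => (e.1, e.2.2.1, e.2.1, !e.2.2.2) with hrevd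
  set q : Ed → ℝ := fun e => μ e.1.1 / (2 * (D : ℝ) ^ 2) with hqd
  set wN : Ed → ℕ → ℕ :=
    fun e i => if hi : i < 2 * (R + 2) * B then e.1.1 ⟨i, hi⟩ else 0 with hwN
  set g : Ed → (ℕ →₀ ℤ) := fun e => field B m R e.2.2.2 (wN e) with hgd
  have hwmono : ∀ e, StrictMonoOn (wN e) (Set.Iio (2 * (R + 2) * B)) := by
    intro e i hi k hk hik
    simp only [Set.mem_Iio] at hi hk
    simp only [hwN, dif_pos hi, dif_pos hk]
    exact hmono _ (mem_filter.1 e.1.2).1 hik
  have hrev : ∀ e, rev (rev e) = e := fun e => by simp [hrevd]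
  have hq0 : ∀ e, 0 ≤ q e := fun e => div_nonneg (hμ0 _) (by positivity)
  have hq : ∀ e, q (rev e) = q e := fun e => rfl
  have hq1 : ∑ e, q e = 1 := by
    simp only [hqd, Ed, Fintype.sum_prod_type, sum_const, card_univ, nsmul_eq_mul]
    simp only [Fintype.card_prod, Fintype.card_fin, Fintype.card_bool, Nat.cast_mul]
    rw [Finset.sum_coe_sort s' (fun w => (D : ℝ) * ((D : ℝ) * ((2 : ℕ) : ℝ)) * (μ w / (2 * (D : ℝ) ^ 2)))]
    simp only [← Finset.mul_sum, ← Finset.sum_div, hμ1']
    field_simp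
    norm_num
  have hπ : ∀ x : V, 0 < vW src q x := by
    intro x
    obtain ⟨e, -, he⟩ := mem_image.1 x.2
    refine Finset.sum_pos' (fun e _ => hq0 e) ⟨e, ?_, ?_⟩
    · simp only [mem_filter, mem_univ, true_and]
      exact Subtype.ext he
    · exact div_pos (lt_of_le_of_ne (hμ0 _) (Ne.symm (mem_filter.1 e.1.2).2)) (by positivity)
  have hg : ∀ e, g (rev e) = -g e := by
    intro e
    simp only [hgd]
    rw [show wN (rev e) = wN e from rfl, field_eq_pat B m R _ _ hm, field_eq_pat B m R _ _ hm]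
    rcases e with ⟨w, a, b, c⟩
    cases c <;> simp [hrevd]
  set sh : Ed → Fin D := fun e => e.2.1 with hshd
  have hclose : ∀ a, ∑ x, |shW src q sh x a - vW src q x / (D : ℝ)| ≤
      (1 / (4 * n)) / (D : ℝ) := by
    intro a
    set σ : V → ℝ := fun x => if 0 ≤ shW src q sh x a - vW src q x / (D : ℝ) then 1 else -1
    set φ : (Fin (R * B) → ℕ) → ℝ :=
      fun v => if hv : v ∈ (univ : Finset Ed).image st then σ ⟨v, hv⟩ else 0 with hφd
    have hφ1 : ∀ v, |φ v| ≤ 1 := by
      intro v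
      simp only [hφd, σ]
      split_ifs <;> simp
    have hφs : ∀ e, φ (st e) = σ (src e) := fun e => dif_pos _
    set Ev : Fin D → Bool → ℝ := fun a' c => ∑ w ∈ s', μ w * φ (w ∘ ι a' c) with hEv
    have hfull : ∀ a' c, Ev a' c = ∑ w ∈ s, μ w * φ (w ∘ ι a' c) := by
      intro a' c
      refine Finset.sum_subset (Finset.filter_subset _ _) (fun w hw hn => ?_)
      simp only [hs', mem_filter, not_and, not_not] at hn
      rw [hn hw, zero_mul]
    have habs : ∀ x, |shW src q sh x a - vW src q x / (D : ℝ)| =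
        σ x * shW src q sh x a - σ x * vW src q x / (D : ℝ) := by
      intro x
      simp only [σ]
      split
      · next hx => rw [abs_of_nonneg hx]; ring
      · next hx => rw [abs_of_neg (lt_of_not_ge hx)]; ring
    have hA : ∀ a', ∑ x, σ x * shW src q sh x a' =
        (1 / (2 * (D : ℝ))) * ∑ c, Ev a' c := by
      intro a'
      simp only [shW, Finset.mul_sum, ← Finset.filter_filter]
      have : ∀ x, ∑ e ∈ (univ.filter (fun e => src e = x)).filter (fun e => sh e = a'),
          σ x * q e = ∑ e ∈ (univ.filter (fun e => sh e = a')).filter (fun e => src e = x),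
          φ (st e) * q e := by
        intro x
        rw [Finset.filter_comm]
        refine Finset.sum_congr rfl (fun e he => ?_)
        rw [hφs, (mem_filter.1 he).2]
      rw [Finset.sum_congr rfl (fun x _ => this x), Finset.sum_fiberwise, Finset.sum_filter]
      simp only [Ed, hshd, Fintype.sum_prod_type, hEv, hst, hqd, Finset.mul_sum]
      rw [Finset.sum_comm]
      simp only [Finset.sum_ite_irrel, Finset.sum_const_zero, Finset.sum_ite_eq', mem_univ,
        if_true, Finset.sum_const, card_univ, Fintype.card_fin, nsmul_eq_mul]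
      rw [Finset.sum_comm]
      refine (Finset.sum_congr rfl (fun w _ => ?_)).trans
        (Finset.sum_coe_sort s' (fun w => ∑ c, 1 / (2 * (D : ℝ)) * (μ w * φ (w ∘ ι a' c)))
          |>.trans rfl)
      rw [Finset.mul_sum]
      refine Finset.sum_congr rfl (fun c _ => ?_)
      field_simp
    have hV : ∑ x, σ x * vW src q x = ∑ a', ∑ x, σ x * shW src q sh x a' := by
      rw [Finset.sum_comm]
      refine Finset.sum_congr rfl (fun x _ => ?_)
      rw [← Finset.mul_sum]
      congr 1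
      rw [vW, ← Finset.sum_fiberwise (univ.filter (fun e => src e = x)) sh q]
      simp only [shW, Finset.filter_filter]
    simp only [habs, Finset.sum_sub_distrib, ← Finset.sum_div, hV, hA]
    have hpair : ∀ a' c, Ev a c - Ev a' c ≤ 1 / (4 * n) := by
      intro a' c
      rw [hfull, hfull]
      exact (le_abs_self _).trans (hspread _ _ (hιm a c) (hιm a' c) φ hφ1)
    have hsum : (D : ℝ) * ∑ c, Ev a c - ∑ a', ∑ c, Ev a' c ≤
        2 * (D : ℝ) * (1 / (4 * n)) := by
      have : (D : ℝ) * ∑ c, Ev a c = ∑ _a' : Fin D, ∑ c, Ev a c := by simp [mul_add]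
      rw [this, ← Finset.sum_sub_distrib]
      refine (Finset.sum_le_sum (fun a' _ => ?_)).trans (le_of_eq (by simp; ring) :
        (∑ _a' : Fin D, (2 : ℝ) * (1 / (4 * n))) ≤ _)
      rw [← Finset.sum_sub_distrib, Fintype.sum_bool]
      linarith [hpair a' true, hpair a' false]
    rw [← Finset.mul_sum]
    have hDpos : (0 : ℝ) < D := by exact_mod_cast hD1
    calc 1 / (2 * (D : ℝ)) * ∑ c, Ev a c - (1 / (2 * (D : ℝ)) * ∑ a', ∑ c, Ev a' c) / D
        = ((D : ℝ) * ∑ c, Ev a c - ∑ a', ∑ c, Ev a' c) / (2 * (D : ℝ) * D) := by field_simp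
      _ ≤ 2 * (D : ℝ) * (1 / (4 * n)) / (2 * (D : ℝ) * D) := by gcongr
      _ = _ := by field_simp
  set A := N (toR (pat m n)) with hA
  have hA0 : 0 < A := by
    have h1 := h.pat_lower m n hn1
    have h2 : (1 : ℝ) ≤ m := by exact_mod_cast hm
    rcases (apply_nonneg N (toR (pat m n))).lt_or_eq with h3 | h3
    · exact h3
    · exfalso
      rw [← h3, mul_zero] at h1
      linarith
  obtain ⟨k, hk⟩ : ∃ k, n = k + 1 := ⟨n - 1, by omega⟩
  have hgood : ∀ es : ℕ → Ed, (∀ i < k, src (es (i + 1)) = src (rev (es i)) ∧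
      sh (rev (es i)) ≠ sh (es (i + 1))) →
      ((n : ℝ) * A / (2 * C1)) ^ p ≤ N (toR (∑ i ∈ range (k + 1), g (es i))) ^ p := by
    intro es hes
    obtain ⟨lo, hi, φ, hφ, hnest⟩ := nesting n m D R hn1 hm le_rfl (fun i => wN (es i))
      (fun i => ((es i).2.1 : ℕ)) (fun i => ((es i).2.2.1 : ℕ)) (fun i => (es i).2.2.2)
      (fun i _ => hwmono _) (fun i _ => (es i).2.1.2) (fun i _ => (es i).2.2.1.2)
      (fun i hi' j hj => by
        have := congrArg (fun v : V => v.1 ⟨j, hj⟩) (hes i (by omega)).1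
        simp only [hsrc, hst, hrevd, Function.comp] at this
        simp only [hwN]
        rw [dif_pos (stIdx_bound D m R _ _ hm (es i).2.2.1.2 hj),
          dif_pos (stIdx_bound D m R _ _ hm (es (i + 1)).2.1.2 hj)]
        refine Eq.trans ?_ (this.symm.trans ?_)
        · refine congrArg _ (Fin.ext ?_)
          rw [hιv]
        · refine congrArg _ (Fin.ext ?_)
          rw [hιv])
      (fun i hi' hab => (hes i (by omega)).2 (Fin.ext hab.symm))
    rw [← hk]
    refine Real.rpow_le_rpow (by positivity) ?_ (by linarith)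
    have hY := h.interval_norm_le (toR (∑ i ∈ range n, g (es i))) lo hi
    have hfilter : (toR (∑ i ∈ range n, g (es i))).filter (fun u => lo ≤ u ∧ u < hi) =
        toR ((∑ i ∈ range n, g (es i)).filter (fun u => lo ≤ u ∧ u < hi)) := by
      ext u
      simp only [Finsupp.filter_apply, toR_apply]
      split_ifs <;> simp
    rw [hfilter] at hY
    simp only [hgd] at hY ⊢
    rw [hnest, toR_mapDomain, h.spread φ hφ] at hY
    have hC1pos : 0 < C1 := by rw [hC1]; linarith
    rw [div_le_iff₀ (by positivity)]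
    rw [← hC1] at hY
    nlinarith [hscale, hY]
  have hlow := path_lower src rev q g sh hrev hq0 hq hq1 hπ (D : ℝ) (1 / (4 * n))
    (by exact_mod_cast hD1) (by simp) hclose (fun v => N (toR v) ^ p)
    (fun v => Real.rpow_nonneg (apply_nonneg N _) p) _
    (Real.rpow_nonneg (div_nonneg (mul_nonneg (Nat.cast_nonneg n) hA0.le)
      (by rw [hC1]; linarith)) p) k hgood
  have hup := box_lift src rev q g hrev hq0 hq hq1 hg hπ N p K (by linarith) hK hMT (k + 1)
    (by omega)
  have hedge : ∑ e, q e * N (toR (g e)) ^ p ≤ (C2 * A) ^ p := by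
    calc ∑ e, q e * N (toR (g e)) ^ p ≤ ∑ e, q e * (C2 * A) ^ p := by
          refine Finset.sum_le_sum (fun e _ => mul_le_mul_of_nonneg_left ?_ (hq0 e))
          exact Real.rpow_le_rpow (apply_nonneg N _)
            (field_norm_le h n B m R _ _ hm hmB (by omega) (hwmono e)) (by linarith)
      _ = _ := by rw [← Finset.sum_mul, hq1, one_mul]
  have hhalf : (1 : ℝ) / 2 ≤ 1 - k * (1 / (D : ℝ) + 1 / (4 * n)) := by
    have h1 : (k : ℝ) ≤ n := by exact_mod_cast (by omega : k ≤ n)
    have h2 : (D : ℝ) = 4 * n := by simp [hD]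
    have h3 : (0 : ℝ) < n := by exact_mod_cast hn1
    rw [h2]
    field_simp
    linarith
  have hC1pos : 0 < C1 := by rw [hC1]; linarith
  have hC2pos : 0 < C2 := by rw [hC2]; linarith
  have hn0 : (0 : ℝ) < n := by exact_mod_cast hn1
  have hk' : ((k + 1 : ℕ) : ℝ) = n := by rw [hk]
  rw [hk'] at hup
  have key : ((n : ℝ) * A / (2 * C1)) ^ p * (1 / 2) ≤ 2 * (K ^ p * n * (C2 * A) ^ p) := by
    refine le_trans (le_trans (mul_le_mul_of_nonneg_left hhalf (by positivity)) hlow) ?_
    exact hup.trans (mul_le_mul_of_nonneg_left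
      (mul_le_mul_of_nonneg_left hedge (by positivity)) (by norm_num))
  have e1 : ((n : ℝ) * A / (2 * C1)) ^ p = (n : ℝ) ^ (p - 1) * n * A ^ p / (2 * C1) ^ p := by
    rw [Real.div_rpow (by positivity) (by positivity), Real.mul_rpow hn0.le hA0.le]
    congr 2
    rw [← Real.rpow_add_one hn0.ne', sub_add_cancel]
  have e2 : (2 * C1 * C2 * K) ^ p = (2 * C1) ^ p * C2 ^ p * K ^ p := by
    rw [Real.mul_rpow (by positivity) hK, Real.mul_rpow (by positivity) hC2pos.le]
  rw [e1, Real.mul_rpow hC2pos.le hA0.le] at key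
  rw [e2] at hnb
  have hpos : (0 : ℝ) < (2 * C1) ^ p := by positivity
  have hApos : (0 : ℝ) < A ^ p := Real.rpow_pos_of_pos hA0 p
  rw [div_mul_eq_mul_div, div_le_iff₀ hpos] at key
  have : (n : ℝ) ^ (p - 1) ≤ 4 * ((2 * C1) ^ p * C2 ^ p * K ^ p) := by
    refine le_of_mul_le_mul_right ?_ (mul_pos hn0 hApos)
    linarith
  linarith

end Vale.Agent.P125
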