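import Mathlib
import Vale.Agent.P125.Defs

/-!
P125, module 2: few jumps gives an equivalent uniformly convex norm; in the dual it gives an
equivalent uniformly smooth norm of the space.
-/

namespace Vale.Agent.P125

open Finset

section Convex

variable {E : Type*} [NormedAddCommGroup E] [NormedSpace ℝ E]

/-- The negated tree. -/
def JTree.negT : JTree E → JTree E
  | .leaf x => .leaf (-x)
  | .node x n w c => .node (-x) n w fun i => (c i).negT

/-- Expected squared norm at the leaves minus `δ` times the expected number of steps. -/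
noncomputable def score (δ : ℝ) : JTree E → ℝ
  | .leaf x => ‖x‖ ^ 2
  | .node _ _ w c => (∑ i, w i * score δ (c i)) - δ

/-- Expected number of steps. -/
noncomputable def steps : JTree E → ℝ
  | .leaf _ => 0
  | .node _ _ w c => 1 + ∑ i, w i * steps (c i)

omit [NormedSpace ℝ E] in
lemma val_negT : ∀ T : JTree E, T.negT.val = -T.val
  | .leaf _ => rfl
  | .node _ _ _ _ => rfl

omit [NormedSpace ℝ E] in
lemma score_negT (δ : ℝ) : ∀ T : JTree E, score δ T.negT = score δ T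
  | .leaf x => by simp [JTree.negT, score]
  | .node x n w c => by
    simp only [JTree.negT, score]
    simp only [fun i => score_negT δ (c i)]

lemma isJump_negT {ε : ℝ} : ∀ T : JTree E, IsJump ε T → IsJump ε T.negT
  | .leaf x, h => by simpa [JTree.negT, IsJump] using h
  | .node x n w c, ⟨h1, h2, h3, h4, h5, h6⟩ => by
    refine ⟨by simpa using h1, h2, h3, ?_, ?_, fun i => isJump_negT (c i) (h6 i)⟩
    · simp only [val_negT, smul_neg, sum_neg_distrib, h4]
    · simpa [val_negT, neg_add_eq_sub, norm_sub_rev] using h5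

lemma norm_val_le {ε : ℝ} : ∀ T : JTree E, IsJump ε T → ‖T.val‖ ≤ 1
  | .leaf _, h => h
  | .node _ _ _ _, h => h.1

lemma sq_norm_sum_le {n : ℕ} (w : Fin n → ℝ) (v : Fin n → E) (h0 : ∀ i, 0 ≤ w i)
    (h1 : ∑ i, w i = 1) : ‖∑ i, w i • v i‖ ^ 2 ≤ ∑ i, w i * ‖v i‖ ^ 2 := by
  have h : ‖∑ i, w i • v i‖ ≤ ∑ i, w i * ‖v i‖ := by
    refine (norm_sum_le _ _).trans (le_of_eq (sum_congr rfl fun i _ => ?_))
    rw [norm_smul, Real.norm_of_nonneg (h0 i)]
  refine (pow_le_pow_left₀ (norm_nonneg _) h 2).trans ?_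
  exact Real.pow_arith_mean_le_arith_mean_pow univ w _ (fun i _ => h0 i) h1
    (fun i _ => norm_nonneg _) 2

lemma score_lower {ε : ℝ} (δ : ℝ) :
    ∀ T : JTree E, IsJump ε T → ‖T.val‖ ^ 2 - δ * steps T ≤ score δ T
  | .leaf x, _ => by simp [score, steps, JTree.val]
  | .node x n w c, ⟨_, h2, h3, h4, _, h6⟩ => by
    have hc : ∑ i, w i * (‖(c i).val‖ ^ 2 - δ * steps (c i)) ≤ ∑ i, w i * score δ (c i) :=
      sum_le_sum fun i _ => mul_le_mul_of_nonneg_left (score_lower δ (c i) (h6 i)) (h2 i)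
    have hx : ‖x‖ ^ 2 ≤ ∑ i, w i * ‖(c i).val‖ ^ 2 := h4 ▸ sq_norm_sum_le w _ h2 h3
    simp only [mul_sub, sum_sub_distrib, mul_left_comm _ δ, ← mul_sum] at hc
    simp only [score, steps, JTree.val]
    linarith

lemma steps_le_tail {ε : ℝ} {L : ℕ} (hL : ∀ T : JTree E, IsJump ε T → tailP L T ≤ 1 / 2) :
    ∀ T : JTree E, IsJump ε T → ∀ k, steps T ≤ k + 2 * L * tailP k T
  | .leaf x, _, k => by
    simp only [steps]
    cases k <;> simp [tailP]; positivity
  | .node x n w c, hT, k => by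
    have hT' := hT
    obtain ⟨_, h2, h3, _, _, h6⟩ := hT'
    have hsucc : ∀ k : ℕ, steps (JTree.node x n w c) ≤
        (k + 1 : ℕ) + 2 * L * tailP (k + 1) (JTree.node x n w c) := by
      intro k
      have := sum_le_sum (s := univ) fun i _ =>
        mul_le_mul_of_nonneg_left (steps_le_tail hL (c i) (h6 i) k) (h2 i)
      simp only [mul_add, sum_add_distrib, ← sum_mul, h3, one_mul,
        mul_left_comm (w _) (2 * (L : ℝ)), ← mul_sum] at this
      simp only [steps, tailP]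
      push_cast
      linarith
    cases k with
    | succ k => exact hsucc k
    | zero =>
      cases L with
      | zero =>
        have := hL (JTree.leaf (0 : E)) (by simp [IsJump])
        norm_num [tailP] at this
      | succ L =>
        have h := hL _ hT
        have h' := hsucc L
        simp only [tailP]
        push_cast at h' ⊢
        nlinarith [mul_le_mul_of_nonneg_left h (show (0:ℝ) ≤ 2 * ((L:ℝ) + 1) by positivity)]

lemma steps_le {ε : ℝ} {L : ℕ} (hL : ∀ T : JTree E, IsJump ε T → tailP L T ≤ 1 / 2)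
    (T : JTree E) (hT : IsJump ε T) : steps T ≤ 2 * L := by
  simpa [tailP] using steps_le_tail hL T hT 0

/-- Values of the finite convex combinations of jump trees with barycentre `x`. -/
def phiSet (ε δ : ℝ) (x : E) : Set ℝ :=
  {r | ∃ (n : ℕ) (w : Fin n → ℝ) (c : Fin n → JTree E), (∀ i, 0 ≤ w i) ∧ (∑ i, w i) = 1 ∧
    (∀ i, IsJump ε (c i)) ∧ (∑ i, w i • (c i).val) = x ∧ r = ∑ i, w i * score δ (c i)}

/-- The convex minorant of the score. -/
noncomputable def phi (ε δ : ℝ) (x : E) : ℝ := sInf (phiSet ε δ x)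

variable {ε δ : ℝ} {L : ℕ}

lemma mem_phiSet_leaf {x : E} (hx : ‖x‖ ≤ 1) : ‖x‖ ^ 2 ∈ phiSet ε δ x :=
  ⟨1, fun _ => 1, fun _ => .leaf x, fun _ => zero_le_one, by simp, fun _ => hx,
    by simp [JTree.val], by simp [score]⟩

lemma phiSet_neg {x : E} {r : ℝ} : r ∈ phiSet ε δ x → r ∈ phiSet ε δ (-x) := by
  rintro ⟨n, w, c, h0, h1, hc, hx, hr⟩
  exact ⟨n, w, fun i => (c i).negT, h0, h1, fun i => isJump_negT _ (hc i),
    by simp [val_negT, hx], by simp [score_negT, hr]⟩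

lemma phi_neg (x : E) : phi ε δ (-x) = phi ε δ x :=
  congrArg sInf (Set.ext fun _ => ⟨fun h => by simpa using phiSet_neg h, phiSet_neg⟩)

section

variable (hδ : 0 ≤ δ) (hL : ∀ T : JTree E, IsJump ε T → tailP L T ≤ 1 / 2)
include hδ hL

lemma phiSet_lower {x : E} {r : ℝ} (hr : r ∈ phiSet ε δ x) : ‖x‖ ^ 2 - δ * (2 * L) ≤ r := by
  obtain ⟨n, w, c, h0, h1, hc, rfl, rfl⟩ := hr
  have h : ∑ i, w i * (‖(c i).val‖ ^ 2 - δ * (2 * L)) ≤ ∑ i, w i * score δ (c i) :=
    sum_le_sum fun i _ => mul_le_mul_of_nonneg_left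
      (le_trans (sub_le_sub_left (mul_le_mul_of_nonneg_left (steps_le hL _ (hc i)) hδ) _)
        (score_lower δ _ (hc i))) (h0 i)
  simp only [mul_sub, sum_sub_distrib, ← sum_mul, h1, one_mul] at h
  linarith [sq_norm_sum_le w (fun i => (c i).val) h0 h1]

lemma phi_le_sq {x : E} (hx : ‖x‖ ≤ 1) : phi ε δ x ≤ ‖x‖ ^ 2 :=
  csInf_le ⟨_, fun _ => phiSet_lower hδ hL⟩ (mem_phiSet_leaf hx)

lemma le_phi {x : E} (hx : ‖x‖ ≤ 1) : ‖x‖ ^ 2 - δ * (2 * L) ≤ phi ε δ x :=
  le_csInf ⟨_, mem_phiSet_leaf hx⟩ fun _ => phiSet_lower hδ hL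

omit hδ hL in
lemma phi_combine {x y : E} (hx : ‖x‖ ≤ 1) (hy : ‖y‖ ≤ 1) {s t : ℝ} (hs : 0 ≤ s) (ht : 0 ≤ t)
    {b : ℝ} (h : ∀ r ∈ phiSet ε δ x, ∀ r' ∈ phiSet ε δ y, b ≤ s * r + t * r') :
    b ≤ s * phi ε δ x + t * phi ε δ y := by
  refine le_of_forall_pos_le_add fun η hη => ?_
  have hpos : 0 < η / (s + t + 1) := div_pos hη (by linarith)
  obtain ⟨r, hr, hr'⟩ := Real.lt_sInf_add_pos ⟨_, mem_phiSet_leaf (ε := ε) (δ := δ) hx⟩ hpos
  obtain ⟨q, hq, hq'⟩ := Real.lt_sInf_add_pos ⟨_, mem_phiSet_leaf (ε := ε) (δ := δ) hy⟩ hpos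
  have h1 : (s + t) * (η / (s + t + 1)) ≤ η := by
    rw [mul_div_assoc', div_le_iff₀ (by linarith)]; nlinarith
  change r < phi ε δ x + _ at hr'
  change q < phi ε δ y + _ at hq'
  nlinarith [h r hr q hq, mul_le_mul_of_nonneg_left hr'.le hs, mul_le_mul_of_nonneg_left hq'.le ht]

lemma phi_convex {x y : E} (hx : ‖x‖ ≤ 1) (hy : ‖y‖ ≤ 1) {s t : ℝ} (hs : 0 ≤ s) (ht : 0 ≤ t)
    (hst : s + t = 1) : phi ε δ (s • x + t • y) ≤ s * phi ε δ x + t * phi ε δ y := by
  refine phi_combine hx hy hs ht ?_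
  rintro r ⟨n, w, c, h0, h1, hc, hcx, rfl⟩ r' ⟨m, u, d, g0, g1, hd, hdy, rfl⟩
  refine csInf_le ⟨_, fun _ => phiSet_lower hδ hL⟩
    ⟨n + m, Fin.append (fun i => s * w i) (fun i => t * u i), Fin.append c d, ?_, ?_, ?_, ?_, ?_⟩
  · intro i
    refine Fin.addCases (fun i => ?_) (fun i => ?_) i <;>
      simp [mul_nonneg hs (h0 _), mul_nonneg ht (g0 _)]
  · simp [Fin.sum_univ_add, ← mul_sum, h1, g1, hst]
  · intro i
    refine Fin.addCases (fun i => ?_) (fun i => ?_) i <;> simp [hc, hd]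
  · simp [Fin.sum_univ_add, mul_smul, ← smul_sum, hcx, hdy]
  · simp [Fin.sum_univ_add, mul_assoc, ← mul_sum]

lemma phi_mid {x y : E} (hx : ‖x‖ ≤ 1) (hy : ‖y‖ ≤ 1) (hxy : 2 * ε ≤ ‖x - y‖) :
    phi ε δ ((1 / 2 : ℝ) • (x + y)) ≤ (phi ε δ x + phi ε δ y) / 2 - δ := by
  suffices phi ε δ ((1 / 2 : ℝ) • (x + y)) + δ ≤ 1/2 * phi ε δ x + 1/2 * phi ε δ y by linarith
  refine phi_combine hx hy (by norm_num) (by norm_num) ?_
  rintro r ⟨n, w, c, h0, h1, hc, hcx, rfl⟩ r' ⟨m, u, d, g0, g1, hd, hdy, rfl⟩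
  set z := (1 / 2 : ℝ) • (x + y) with hz
  have hz1 : ‖z‖ ≤ 1 := by
    rw [hz, norm_smul, Real.norm_of_nonneg (by norm_num : (0:ℝ) ≤ 1/2)]
    linarith [norm_add_le x y]
  have hjmp : IsJump ε (JTree.node z (n + m)
      (Fin.append (fun i => 1/2 * w i) (fun i => 1/2 * u i)) (Fin.append c d)) := by
    refine ⟨hz1, ?_, ?_, ?_, ?_, ?_⟩
    · intro i
      refine Fin.addCases (fun i => ?_) (fun i => ?_) i <;> simp [h0, g0]
    · simp [Fin.sum_univ_add, ← mul_sum, h1, g1]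
      norm_num
    · simp [Fin.sum_univ_add, mul_smul, ← smul_sum, hcx, hdy, hz, smul_add]
    · simp only [Fin.sum_univ_add, Fin.append_left, Fin.append_right, mul_assoc, ← mul_sum]
      have hX : ‖x - z‖ ≤ ∑ i, w i * ‖(c i).val - z‖ := by
        have : x - z = ∑ i, w i • ((c i).val - z) := by
          simp [smul_sub, sum_sub_distrib, ← sum_smul, h1, hcx]
        rw [this]
        refine (norm_sum_le _ _).trans (le_of_eq (sum_congr rfl fun i _ => ?_))
        rw [norm_smul, Real.norm_of_nonneg (h0 i)]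
      have hY : ‖y - z‖ ≤ ∑ i, u i * ‖(d i).val - z‖ := by
        have : y - z = ∑ i, u i • ((d i).val - z) := by
          simp [smul_sub, sum_sub_distrib, ← sum_smul, g1, hdy]
        rw [this]
        refine (norm_sum_le _ _).trans (le_of_eq (sum_congr rfl fun i _ => ?_))
        rw [norm_smul, Real.norm_of_nonneg (g0 i)]
      have e1 : x - z = (1 / 2 : ℝ) • (x - y) := by rw [hz]; module
      have e2 : y - z = (-(1 / 2) : ℝ) • (x - y) := by rw [hz]; module
      rw [e1, norm_smul] at hX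
      rw [e2, norm_smul] at hY
      norm_num at hX hY ⊢
      linarith
    · intro i
      refine Fin.addCases (fun i => ?_) (fun i => ?_) i <;> simp [hc, hd]
  have hle := csInf_le ⟨_, fun r (hr : r ∈ phiSet ε δ z) => phiSet_lower hδ hL hr⟩
    ⟨1, fun _ => 1, fun _ => _, fun _ => zero_le_one, by simp, fun _ => hjmp,
      by simp [JTree.val], rfl⟩
  simp [score, Fin.sum_univ_add, mul_assoc, ← mul_sum] at hle
  change phi ε δ z ≤ _ at hle
  linarith

end

theorem exists_unifConvex_of_fewJumps' (h : FewJumps E) :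
    ∃ N : Seminorm ℝ E, EquivNorm N ∧ UnifConvex N := by
  choose L hL using fun i : ℕ => h ((1 / 2 : ℝ) ^ i) (by positivity)
  set δ : ℕ → ℝ := fun i => 1 / (4 * (2 * L i + 1)) with hδdef
  have hδ : ∀ i, 0 < δ i := fun i => by positivity
  have hδK : ∀ i, δ i * (2 * L i) ≤ 1 / 4 := fun i => by
    simp only [hδdef, one_div, inv_mul_eq_div]
    rw [div_le_iff₀ (by positivity)]; linarith
  set f : ℕ → E → ℝ := fun i x => phi ((1 / 2 : ℝ) ^ i) (δ i) x with hf
  set Ψ : E → ℝ := fun x => ∑' i, (1 / 2 : ℝ) ^ (i + 1) * f i x with hΨ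
  have hg : HasSum (fun i : ℕ => (1 / 2 : ℝ) ^ (i + 1)) 1 := by
    have := hasSum_geometric_two.mul_left (1 / 2 : ℝ)
    simpa [pow_succ'] using this
  have hb : ∀ {x : E}, ‖x‖ ≤ 1 → ∀ i, ‖x‖ ^ 2 - 1 / 4 ≤ f i x ∧ f i x ≤ ‖x‖ ^ 2 := fun hx i =>
    ⟨le_trans (by linarith [hδK i]) (le_phi (hδ i).le (hL i) hx), phi_le_sq (hδ i).le (hL i) hx⟩
  have hsum : ∀ {x : E}, ‖x‖ ≤ 1 → Summable fun i => (1 / 2 : ℝ) ^ (i + 1) * f i x := by
    intro x hx
    refine Summable.of_norm_bounded hg.summable fun i => ?_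
    rw [norm_mul, Real.norm_of_nonneg (by positivity : (0:ℝ) ≤ (1 / 2) ^ (i + 1))]
    refine mul_le_of_le_one_right (by positivity) (abs_le.mpr ⟨?_, ?_⟩) <;>
      nlinarith [hb hx i, norm_nonneg x]
  have hup : ∀ {x : E}, ‖x‖ ≤ 1 → Ψ x ≤ ‖x‖ ^ 2 := fun {x} hx => by
    refine ((hsum hx).tsum_le_tsum (fun i => mul_le_mul_of_nonneg_left (hb hx i).2
      (by positivity)) (hg.summable.mul_right _)).trans (le_of_eq ?_)
    rw [hg.summable.tsum_mul_right, hg.tsum_eq, one_mul]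
  have hlo : ∀ {x : E}, ‖x‖ ≤ 1 → ‖x‖ ^ 2 - 1 / 4 ≤ Ψ x := fun {x} hx => by
    refine le_trans (le_of_eq ?_) ((hg.summable.mul_right _).tsum_le_tsum (fun i =>
      mul_le_mul_of_nonneg_left (hb hx i).1 (by positivity)) (hsum hx))
    rw [hg.summable.tsum_mul_right, hg.tsum_eq, one_mul]
  have hball : ∀ {x y : E}, ‖x‖ ≤ 1 → ‖y‖ ≤ 1 → ∀ {s t : ℝ}, 0 ≤ s → 0 ≤ t → s + t = 1 →
      ‖s • x + t • y‖ ≤ 1 := fun {x y} hx hy {s t} hs ht hst => by
    refine (norm_add_le _ _).trans ?_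
    rw [norm_smul, norm_smul, Real.norm_of_nonneg hs, Real.norm_of_nonneg ht]
    nlinarith
  have hconv : ∀ {x y : E}, ‖x‖ ≤ 1 → ‖y‖ ≤ 1 → ∀ {s t : ℝ}, 0 ≤ s → 0 ≤ t → s + t = 1 →
      Ψ (s • x + t • y) ≤ s * Ψ x + t * Ψ y := fun {x y} hx hy {s t} hs ht hst => by
    refine ((hsum (hball hx hy hs ht hst)).tsum_le_tsum (fun i => ?_)
      (((hsum hx).mul_left s).add ((hsum hy).mul_left t))).trans (le_of_eq ?_)
    · have := mul_le_mul_of_nonneg_left (phi_convex (hδ i).le (hL i) hx hy hs ht hst)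
        (by positivity : (0:ℝ) ≤ (1 / 2) ^ (i + 1))
      simp only [hf]; linarith
    · rw [((hsum hx).mul_left s).tsum_add ((hsum hy).mul_left t), tsum_mul_left, tsum_mul_left]
  set C : Set E := {x | ‖x‖ ≤ 1 ∧ Ψ x ≤ 1 / 2} with hC
  have hCconv : Convex ℝ C := fun x hx y hy s t hs ht hst =>
    ⟨hball hx.1 hy.1 hs ht hst, (hconv hx.1 hy.1 hs ht hst).trans (by nlinarith [hx.2, hy.2])⟩
  have hsmall : Metric.closedBall (0 : E) (1 / 2) ⊆ C := fun x hx => by
    rw [mem_closedBall_zero_iff] at hx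
    exact ⟨by linarith, (hup (by linarith)).trans (by nlinarith [norm_nonneg x])⟩
  have hneg : ∀ x ∈ C, -x ∈ C := fun x hx =>
    ⟨by simpa using hx.1, by simpa [hΨ, hf, phi_neg] using hx.2⟩
  have habs : Absorbent ℝ C :=
    (absorbent_nhds_zero (𝕜 := ℝ)
      (Metric.closedBall_mem_nhds (0 : E) (show (0:ℝ) < 1 / 2 by norm_num))).mono hsmall
  have hbal : Balanced ℝ C := balanced_iff_smul_mem.mpr fun {a} ha x hx => by
    rw [Real.norm_eq_abs, abs_le] at ha
    have := hCconv hx (hneg x hx) (a := (1 + a) / 2) (b := (1 - a) / 2) (by linarith [ha.1])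
      (by linarith [ha.2]) (by ring)
    convert this using 1
    module
  set N := gaugeSeminorm hbal hCconv habs with hN
  have hlow : ∀ x, ‖x‖ ≤ N x := fun x => by
    have := gauge_mono habs (show C ⊆ Metric.closedBall 0 1 from fun y hy => by
      simpa using hy.1) x
    simpa [hN, gauge_closedBall (zero_le_one (α := ℝ))] using this
  have hhigh : ∀ x, N x ≤ 2 * ‖x‖ := fun x => by
    have := gauge_mono (absorbent_nhds_zero (𝕜 := ℝ)
      (Metric.closedBall_mem_nhds (0:E) (show (0:ℝ) < 1/2 by norm_num))) hsmall x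
    rw [gauge_closedBall (by norm_num : (0:ℝ) ≤ 1/2)] at this
    change gauge C x ≤ _
    linarith
  refine ⟨N, ⟨1, 2, one_pos, two_pos, fun x => ⟨by simpa using hlow x, hhigh x⟩⟩, fun e he => ?_⟩
  obtain ⟨i, hi⟩ := exists_pow_lt_of_lt_one (show 0 < e / 8 by positivity)
    (show (1 / 2 : ℝ) < 1 by norm_num)
  set c := (1 / 2 : ℝ) ^ (i + 1) * δ i with hcdef
  have hc0 : 0 < c := mul_pos (pow_pos (by norm_num) _) (hδ i)
  have hc1 : c ≤ 1 / 2 := by
    have : δ i ≤ 1 := by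
      rw [hδdef, div_le_one (by positivity)]; linarith [Nat.cast_nonneg (α := ℝ) (L i)]
    have h2 : (1 / 2 : ℝ) ^ (i + 1) ≤ (1 / 2) ^ 1 :=
      pow_le_pow_of_le_one (by norm_num) (by norm_num) (by omega)
    rw [hcdef]; nlinarith [hδ i, pow_pos (show (0:ℝ) < 1 / 2 by norm_num) (i + 1)]
  set η := c / 16 with hη
  refine ⟨η / (1 + η), by positivity, fun x y hx hy hxy => ?_⟩
  set m := (1 / 2 : ℝ) • (x + y) with hm
  have key : ∀ r : ℝ, 1 / 2 ≤ r → r < 1 → N (((1 + η) * r) • m) ≤ 1 := by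
    intro r hr hr'
    have hmem : ∀ u : E, N u ≤ 1 → r • u ∈ C := fun u hu => by
      refine setOfPred_gauge_lt_one_subset_self hCconv (hsmall (by simp)) habs ?_
      change gauge C (r • u) < 1
      rw [gauge_smul_of_nonneg (by linarith), smul_eq_mul]
      have : r * gauge C u ≤ r * 1 := mul_le_mul_of_nonneg_left hu (by linarith)
      linarith
    obtain ⟨hx1, hx2⟩ := hmem x hx
    obtain ⟨hy1, hy2⟩ := hmem y hy
    have hd : 2 * (1 / 2 : ℝ) ^ i ≤ ‖r • x - r • y‖ := by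
      rw [← smul_sub, norm_smul, Real.norm_of_nonneg (by linarith)]
      nlinarith [hhigh (x - y), hxy, norm_nonneg (x - y)]
    have hrm : r • m = (1 / 2 : ℝ) • (r • x + r • y) := by rw [hm]; module
    have hrm1 : ‖r • m‖ ≤ 9 / 10 := by
      have hb' : ∀ u : E, ‖u‖ ≤ 1 → Ψ u ≤ 1 / 2 → ‖u‖ ≤ 9 / 10 := fun u h1 h2 => by
        nlinarith [hlo h1, norm_nonneg u]
      rw [hrm, norm_smul, Real.norm_of_nonneg (by norm_num : (0:ℝ) ≤ 1/2)]
      linarith [norm_add_le (r • x) (r • y), hb' _ hx1 hx2, hb' _ hy1 hy2]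
    have hΨm : Ψ (r • m) ≤ 1 / 2 - c := by
      have hs := ((hsum hx1).add (hsum hy1)).mul_left (1 / 2 : ℝ)
      have hmid : ∀ j, (1 / 2 : ℝ) ^ (j + 1) * f j (r • m) ≤
          1 / 2 * ((1 / 2 : ℝ) ^ (j + 1) * f j (r • x) + (1 / 2 : ℝ) ^ (j + 1) * f j (r • y)) -
            (if j = i then c else 0) := by
        intro j
        have hp : (0:ℝ) ≤ (1 / 2) ^ (j + 1) := by positivity
        by_cases hj : j = i
        · subst hj
          have := mul_le_mul_of_nonneg_left (phi_mid (hδ j).le (hL j) hx1 hy1 hd) hp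
          rw [if_pos rfl, hrm, hcdef]; simp only [hf]; linarith
        · have := mul_le_mul_of_nonneg_left (phi_convex (hδ j).le (hL j) hx1 hy1
            (by norm_num : (0:ℝ) ≤ 1/2) (by norm_num : (0:ℝ) ≤ 1/2) (by norm_num)) hp
          rw [if_neg hj, hrm, smul_add]; simp only [hf]; linarith
      refine ((hsum (by linarith)).tsum_le_tsum hmid
        (hs.sub (hasSum_ite_eq i c).summable)).trans ?_
      rw [hs.tsum_sub (hasSum_ite_eq i c).summable, tsum_mul_left,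
        (hsum hx1).tsum_add (hsum hy1), tsum_ite_eq]
      change 1 / 2 * (Ψ (r • x) + Ψ (r • y)) - c ≤ _
      linarith
    have hz : ‖(1 + 1 / 16 : ℝ) • (r • m)‖ ≤ 1 := by
      rw [norm_smul, Real.norm_of_nonneg (by norm_num)]; linarith
    have hsplit : ((1 + η) * r) • m =
        (1 - c) • (r • m) + c • ((1 + 1 / 16 : ℝ) • (r • m)) := by rw [hη]; module
    have hin : ((1 + η) * r) • m ∈ C := by
      rw [hsplit]
      refine ⟨hball (by linarith) hz (by linarith) hc0.le (by ring),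
        (hconv (by linarith) hz (by linarith) hc0.le (by ring)).trans ?_⟩
      have hup' := hup hz
      have : ‖(1 + 1 / 16 : ℝ) • (r • m)‖ ^ 2 ≤ 1 := pow_le_one₀ (norm_nonneg _) hz
      nlinarith
    exact gauge_le_one_of_mem hin
  by_contra hcon
  push Not at hcon
  have heq : 1 - η / (1 + η) = 1 / (1 + η) := by
    rw [eq_div_iff (by positivity), sub_mul, one_mul, div_mul_cancel₀ _ (by positivity)]; ring
  rw [heq, div_lt_iff₀ (by positivity)] at hcon
  set v := N m * (1 + η) with hv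
  set r := max (1 / 2) ((1 + 1 / v) / 2) with hr
  have hinv : 1 / v < 1 := by rw [div_lt_one (by linarith)]; exact hcon
  have hr1 : r < 1 := max_lt (by norm_num) (by linarith)
  have h1 := key r (le_max_left _ _) hr1
  have hr0 : (0:ℝ) ≤ (1 + η) * r := mul_nonneg (by positivity) (le_trans (by norm_num) (le_max_left _ _))
  rw [map_smul_eq_mul, Real.norm_of_nonneg hr0] at h1
  have hgt : 1 < v * ((1 + 1 / v) / 2) := by
    have : v * (1 / v) = 1 := by field_simp
    nlinarith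
  nlinarith [le_max_right (1 / 2 : ℝ) ((1 + 1 / v) / 2)]

end Convex

variable {X : Type*} [NormedAddCommGroup X] [NormedSpace ℝ X]

theorem exists_unifConvex_of_fewJumps (h : FewJumps X) :
    ∃ N : Seminorm ℝ X, EquivNorm N ∧ UnifConvex N :=
  exists_unifConvex_of_fewJumps' h

theorem exists_unifSmooth_of_fewJumps_dual (h : FewJumps (StrongDual ℝ X)) :
    ∃ N : Seminorm ℝ X, EquivNorm N ∧ UnifSmooth N := by
  obtain ⟨N, ⟨a, b, ha, hb, hab⟩, hUC⟩ := exists_unifConvex_of_fewJumps' h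
  have : Nonempty {f : StrongDual ℝ X // N f ≤ 1} := ⟨⟨0, by simp⟩⟩
  set M : X → ℝ := fun x => ⨆ f : {f : StrongDual ℝ X // N f ≤ 1}, f.1 x with hM
  have hbd : ∀ x, ∀ f : {f : StrongDual ℝ X // N f ≤ 1}, f.1 x ≤ ‖x‖ / a := fun x f => by
    have h1 : ‖f.1‖ ≤ 1 / a := by
      rw [le_div_iff₀ ha]; linarith [(hab f.1).1, f.2]
    calc f.1 x ≤ ‖f.1 x‖ := Real.le_norm_self _
      _ ≤ ‖f.1‖ * ‖x‖ := f.1.le_opNorm x
      _ ≤ 1 / a * ‖x‖ := mul_le_mul_of_nonneg_right h1 (norm_nonneg x)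
      _ = ‖x‖ / a := by ring
  have hle : ∀ (g : StrongDual ℝ X) (x : X), g x ≤ N g * M x := by
    intro g x
    rcases (apply_nonneg N g).eq_or_lt with h0 | h0
    · have hg : g = 0 := norm_le_zero_iff.mp (by nlinarith [(hab g).1, norm_nonneg g])
      simp [hg]
    · have := le_ciSup ⟨‖x‖ / a, Set.forall_mem_range.mpr (hbd x)⟩
        (⟨(N g)⁻¹ • g, by
          rw [map_smul_eq_mul, Real.norm_of_nonneg (inv_nonneg.mpr h0.le),
            inv_mul_cancel₀ h0.ne']⟩ : {f : StrongDual ℝ X // N f ≤ 1})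
      simp only [smul_apply, smul_eq_mul] at this
      rwa [inv_mul_le_iff₀ h0] at this
  have hM0 : ∀ x, 0 ≤ M x := fun x => by
    simpa using le_ciSup ⟨‖x‖ / a, Set.forall_mem_range.mpr (hbd x)⟩
      (⟨0, by simp⟩ : {f : StrongDual ℝ X // N f ≤ 1})
  have hadd : ∀ x y, M (x + y) ≤ M x + M y := fun x y => ciSup_le fun f => by
    rw [map_add]
    exact add_le_add ((hle f.1 x).trans (mul_le_of_le_one_left (hM0 x) f.2))
      ((hle f.1 y).trans (mul_le_of_le_one_left (hM0 y) f.2))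
  have hsmul : ∀ (r : ℝ) x, M (r • x) ≤ ‖r‖ * M x := fun r x => ciSup_le fun f => by
    have := hle (r • f.1) x
    rw [map_smul_eq_mul] at this
    simp only [smul_apply, smul_eq_mul] at this
    rw [map_smul, smul_eq_mul]
    exact this.trans (mul_le_mul_of_nonneg_right
      (mul_le_of_le_one_right (norm_nonneg r) f.2) (hM0 x))
  refine ⟨Seminorm.ofSMulLE M (by simp [hM]) hadd hsmul, ⟨1 / b, 1 / a, by positivity,
    by positivity, fun x => ⟨?_, ?_⟩⟩, fun ε hε => ?_⟩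
  · obtain ⟨g, hg, hgx⟩ := exists_dual_vector'' ℝ x
    have hgb : N g ≤ b := ((hab g).2).trans (by nlinarith)
    have h1 := hle g x
    rw [hgx] at h1
    change 1 / b * ‖x‖ ≤ M x
    rw [one_div, inv_mul_le_iff₀ hb]
    exact le_trans (by simpa using h1) (mul_le_mul_of_nonneg_right hgb (hM0 x))
  · change M x ≤ 1 / a * ‖x‖
    exact ciSup_le fun f => (hbd x f).trans (le_of_eq (by ring))
  · obtain ⟨δ, hδ, hUC⟩ := hUC ε hε
    refine ⟨δ, hδ, fun τ hτ hτδ x y hx hy => ?_⟩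
    change M x = 1 at hx
    change M y = 1 at hy
    change (M (x + τ • y) + M (x - τ • y)) / 2 - 1 ≤ ε * τ
    suffices M (x + τ • y) + M (x - τ • y) ≤ 2 + 2 * ε * τ by linarith
    rw [← le_sub_iff_add_le]
    refine ciSup_le fun f => ?_
    rw [le_sub_iff_add_le, ← le_sub_iff_add_le']
    refine ciSup_le fun g => ?_
    have h1 := hle (f.1 + g.1) x
    have h2 := hle (f.1 - g.1) y
    rw [hx, mul_one] at h1
    rw [hy, mul_one] at h2
    have hp : N (f.1 + g.1) ≤ 2 := (map_add_le_add N _ _).trans (by linarith [f.2, g.2])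
    have hm : N (f.1 - g.1) ≤ 2 := (map_sub_le_add N _ _).trans (by linarith [f.2, g.2])
    simp only [add_apply, sub_apply] at h1 h2
    simp only [map_add, map_sub, map_smul, smul_eq_mul]
    rcases lt_or_ge (N (f.1 - g.1)) ε with hsm | hlg
    · nlinarith [apply_nonneg N (f.1 - g.1)]
    · have h3 := hUC f.1 g.1 f.2 g.2 hlg
      rw [map_smul_eq_mul, Real.norm_of_nonneg (by norm_num : (0:ℝ) ≤ 1/2)] at h3
      nlinarith

end Vale.Agent.P125
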