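import Mathlib
import Vale.Agent.P125.Defs

/-!
P125, module 3b: witnesses and the Markov type inequality give a spreading seminorm with the
same inequality (iterated ultrafilter limits).
-/

namespace Vale.Agent.P125

namespace SpreadModel

open Filter Topology

/-- A nonprincipal ultrafilter on `ℕ`. -/
noncomputable def U : Ultrafilter ℕ := hyperfilter ℕ

lemma eventually_gt (i : ℕ) : ∀ᶠ j in (U : Filter ℕ), i < j :=
  (hyperfilter_le_cofinite (α := ℕ))
    (by rw [Nat.cofinite_eq_atTop]; exact eventually_gt_atTop i)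

/-- The iterated ultrafilter on `m`-tuples: the first coordinate is chosen first. -/
noncomputable def G : ∀ m : ℕ, Ultrafilter (Fin m → ℕ)
  | 0 => pure Fin.elim0
  | m + 1 => Ultrafilter.bind U fun i => (G m).map (Fin.cons i)

lemma ultra_subsingleton {α : Type} [Subsingleton α] (a b : Ultrafilter α) : a = b := by
  refine Ultrafilter.coe_injective ?_
  apply Filter.ext
  intro s
  rcases Subsingleton.eq_univ_of_nonempty |> fun h => (s.eq_empty_or_nonempty).imp_right h with
    h | h
  · simp [h]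
  · simp [h]

lemma mem_bind {α β : Type} (a : Ultrafilter α) (f : α → Ultrafilter β) (s : Set β) :
    s ∈ Ultrafilter.bind a f ↔ {x | s ∈ f x} ∈ a := Iff.rfl

lemma map_G : ∀ (m r : ℕ) (ψ : Fin r → Fin m), StrictMono ψ →
    (G m).map (fun x l => x (ψ l)) = G r := by
  intro m
  induction m with
  | zero =>
    intro r ψ hψ
    cases r with
    | zero => exact ultra_subsingleton _ _
    | succ r => exact (ψ 0).elim0
  | succ m ih =>
    intro r ψ hψ
    cases r with
    | zero => exact ultra_subsingleton _ _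
    | succ r =>
      by_cases h0 : ψ 0 = 0
      · have hne : ∀ l : Fin r, ψ l.succ ≠ 0 := fun l e =>
          Fin.succ_ne_zero l (hψ.injective (e.trans h0.symm))
        have hmono : StrictMono fun l : Fin r => (ψ l.succ).pred (hne l) := fun a b hab => by
          simpa using hψ (Fin.succ_lt_succ_iff.2 hab)
        have ih' := ih r _ hmono
        refine Ultrafilter.coe_injective (Filter.ext fun s => ?_)
        simp only [Ultrafilter.mem_coe, Ultrafilter.mem_map, G, mem_bind]
        refine Filter.congr_sets (Eventually.of_forall fun i => ?_)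
        rw [← ih']
        simp only [Set.mem_ofPred_eq, Ultrafilter.mem_map]
        apply iff_of_eq
        congr 1
        ext y
        simp only [Set.mem_preimage]
        apply iff_of_eq
        congr 1
        funext l
        refine Fin.cases ?_ (fun l => ?_) l
        · simp [h0]
        · rw [Fin.cons_succ]
          conv_lhs => rw [← Fin.succ_pred (ψ l.succ) (hne l)]
          rw [Fin.cons_succ]
      · have hne : ∀ l : Fin (r + 1), ψ l ≠ 0 := fun l e => by
          apply h0
          have : ψ 0 ≤ ψ l := hψ.monotone (Fin.zero_le l)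
          rw [e] at this
          exact le_antisymm this (Fin.zero_le _)
        have hmono : StrictMono fun l : Fin (r + 1) => (ψ l).pred (hne l) := fun a b hab => by
          simpa using hψ hab
        have ih' := ih (r + 1) _ hmono
        refine Ultrafilter.coe_injective (Filter.ext fun s => ?_)
        simp only [Ultrafilter.mem_coe, Ultrafilter.mem_map]
        rw [← ih', G, mem_bind]
        simp only [Ultrafilter.mem_map]
        have : ∀ i : ℕ, Fin.cons i ⁻¹' ((fun (x : Fin (m + 1) → ℕ) l => x (ψ l)) ⁻¹' s) =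
            (fun (x : Fin m → ℕ) l => x ((ψ l).pred (hne l))) ⁻¹' s := by
          intro i
          ext y
          simp only [Set.mem_preimage]
          apply iff_of_eq
          congr 1
          funext l
          conv_lhs => rw [← Fin.succ_pred (ψ l) (hne l)]
          rw [Fin.cons_succ]
        simp only [this]
        constructor
        · intro h
          by_contra hc
          have : {_i : ℕ | (fun (x : Fin m → ℕ) l => x ((ψ l).pred (hne l))) ⁻¹' s ∈ G m} = ∅ :=
            Set.eq_empty_of_forall_notMem fun _ hi => hc hi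
          rw [this] at h
          exact Ultrafilter.empty_notMem h
        · intro h
          filter_upwards with i using h

/-- Restriction to the first `m` coordinates. -/
def res (m : ℕ) (x : ℕ → ℕ) : Fin m → ℕ := fun l => x l

lemma exists_Gω : ∃ Γ : Ultrafilter (ℕ → ℕ), ∀ m, Γ.map (res m) = G m := by
  let F : ℕ → Filter (ℕ → ℕ) := fun m => (G m : Filter (Fin m → ℕ)).comap (res m)
  have hsurj : ∀ m, Function.Surjective (res m) := fun m y =>
    ⟨fun i => if h : i < m then y ⟨i, h⟩ else 0, funext fun l => by simp [res]⟩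
  have hanti : ∀ a b, a ≤ b → F b ≤ F a := by
    intro a b hab
    have h := map_G b a (Fin.castLE hab) (fun x y h => h)
    intro t ht
    obtain ⟨s, hs, hst⟩ := ht
    rw [Ultrafilter.mem_coe, ← h, Ultrafilter.mem_map] at hs
    exact ⟨_, hs, fun x hx => hst hx⟩
  have hne : NeBot (⨅ m, F m) := by
    refine iInf_neBot_of_directed' (fun a b => ⟨max a b, hanti _ _ (le_max_left _ _),
      hanti _ _ (le_max_right _ _)⟩) fun m => ?_
    exact (G m).neBot.comap_of_surj (hsurj m)
  obtain ⟨Γ, hΓ⟩ := Ultrafilter.exists_le (⨅ m, F m)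
  refine ⟨Γ, fun m => Ultrafilter.eq_of_le ?_⟩
  rw [Ultrafilter.coe_map]
  exact (map_mono (hΓ.trans (iInf_le F m))).trans map_comap_le

/-- The ultrafilter on sequences of indices. -/
noncomputable def Gω : Ultrafilter (ℕ → ℕ) := exists_Gω.choose

lemma map_Gω (m : ℕ) (φ : ℕ → ℕ) (hφ : StrictMono φ) :
    Gω.map (fun x (l : Fin m) => x (φ l)) = G m := by
  obtain ⟨b, hb⟩ : ∃ b, ∀ l : Fin m, φ l < b :=
    ⟨φ m + 1, fun l => Nat.lt_succ_of_le (hφ.monotone l.2.le)⟩
  rw [← map_G b m (fun l => ⟨φ l, hb l⟩) (fun a c h => hφ h), ← exists_Gω.choose_spec b,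
    Ultrafilter.map_map]
  rfl

/-- The ultrafilter on pairs (level, indices). -/
noncomputable def Ω : Ultrafilter (ℕ × (ℕ → ℕ)) :=
  Ultrafilter.bind Gω fun x => U.map fun L => (L, x)

lemma map_Ω {m : ℕ} (φ : ℕ → ℕ) (hφ : StrictMono φ) :
    Ω.map (fun q => (q.1, fun l : Fin m => q.2 (φ l))) =
      Ultrafilter.bind (G m) fun y => U.map fun L => (L, y) := by
  refine Ultrafilter.coe_injective (Filter.ext fun s => ?_)
  simp only [Ultrafilter.mem_coe, Ω, Ultrafilter.mem_map, mem_bind]
  rw [← map_Gω m φ hφ, Ultrafilter.mem_map]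
  exact Iff.rfl

/-- The limit along the ultrafilter. -/
noncomputable def ulim {α : Type} (a : Ultrafilter α) (f : α → ℝ) : ℝ := limUnder (a : Filter α) f

lemma tendsto_ulim {α : Type} (a : Ultrafilter α) {f : α → ℝ} {B : ℝ} (h : ∀ x, |f x| ≤ B) :
    Tendsto f a (𝓝 (ulim a f)) := by
  refine tendsto_nhds_limUnder ?_
  have hmem : Set.Icc (-B) B ∈ a.map f := by
    rw [Ultrafilter.mem_map]
    exact univ_mem' fun x => abs_le.1 (h x)
  obtain ⟨c, -, hc⟩ := isCompact_Icc.ultrafilter_le_nhds (a.map f) (Filter.le_principal_iff.2 hmem)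
  exact ⟨c, hc⟩

/-- Limits of functions of finitely many coordinates are spreading. -/
lemma ulim_shift {m : ℕ} (g : ℕ → (Fin m → ℕ) → ℝ) (φ φ' : ℕ → ℕ) (hφ : StrictMono φ)
    (hφ' : StrictMono φ') :
    ulim Ω (fun q => g q.1 fun l => q.2 (φ l)) = ulim Ω (fun q => g q.1 fun l => q.2 (φ' l)) := by
  have h : ∀ ψ : ℕ → ℕ, StrictMono ψ → ulim Ω (fun q => g q.1 fun l => q.2 (ψ l)) =
      ulim (Ultrafilter.bind (G m) fun y => U.map fun L => (L, y)) fun r => g r.1 r.2 := by
    intro ψ hψ
    rw [← map_Ω ψ hψ]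
    simp only [ulim, limUnder, Ultrafilter.coe_map, Filter.map_map]
    rfl
  rw [h φ hφ, h φ' hφ']

lemma eventually_lt {a b : ℕ} (hab : a < b) :
    ∀ᶠ q in (Ω : Filter (ℕ × (ℕ → ℕ))), q.2 a < q.2 b ∧ q.2 b < q.1 := by
  have h := map_Ω (m := 2) (fun i => if i = 0 then a else b + i - 1) (by
    intro i j hij
    simp only
    split_ifs <;> omega)
  have key : {r : ℕ × (Fin 2 → ℕ) | r.2 0 < r.2 1 ∧ r.2 1 < r.1} ∈
      Ultrafilter.bind (G 2) fun y => U.map fun L => (L, y) := by
    rw [mem_bind, G, mem_bind]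
    simp only [Ultrafilter.mem_map]
    refine univ_mem' fun i => ?_
    rw [G, Set.mem_ofPred_eq, mem_bind]
    filter_upwards [eventually_gt i] with j hj
    simp only [Ultrafilter.mem_map, G]
    rw [Ultrafilter.mem_pure]
    filter_upwards [eventually_gt j] with L hL
    exact ⟨hj, hL⟩
  rw [← h, Ultrafilter.mem_map] at key
  filter_upwards [key] with q hq
  simpa using hq

section Lp

variable {X : Type*} [NormedAddCommGroup X] [NormedSpace ℝ X] {n : ℕ}

/-- The norm of `ℓ_p(w; X)`. -/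
noncomputable def nrm (p : ℝ) (w : Fin n → ℝ) (u : Fin n → X) : ℝ :=
  (∑ k, w k * ‖u k‖ ^ p) ^ (1 / p)

variable {p : ℝ} {w : Fin n → ℝ}

omit [NormedSpace ℝ X] in
lemma sum_nonneg' (hw : ∀ k, 0 ≤ w k) (u : Fin n → X) : 0 ≤ ∑ k, w k * ‖u k‖ ^ p :=
  Finset.sum_nonneg fun k _ => mul_nonneg (hw k) (Real.rpow_nonneg (norm_nonneg _) _)

omit [NormedSpace ℝ X] in
lemma nrm_nonneg (hw : ∀ k, 0 ≤ w k) (u : Fin n → X) : 0 ≤ nrm p w u :=
  Real.rpow_nonneg (sum_nonneg' hw u) _

omit [NormedSpace ℝ X] in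
lemma nrm_rpow (hp : 1 ≤ p) (hw : ∀ k, 0 ≤ w k) (u : Fin n → X) :
    nrm p w u ^ p = ∑ k, w k * ‖u k‖ ^ p := by
  rw [nrm, one_div, Real.rpow_inv_rpow (sum_nonneg' hw u) (by linarith)]

lemma nrm_smul (hp : 1 ≤ p) (hw : ∀ k, 0 ≤ w k) (r : ℝ) (u : Fin n → X) :
    nrm p w (r • u) = |r| * nrm p w u := by
  have h : ∑ k, w k * ‖(r • u) k‖ ^ p = |r| ^ p * ∑ k, w k * ‖u k‖ ^ p := by
    rw [Finset.mul_sum]
    refine Finset.sum_congr rfl fun k _ => ?_
    rw [Pi.smul_apply, norm_smul, Real.norm_eq_abs,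
      Real.mul_rpow (abs_nonneg _) (norm_nonneg _)]
    ring
  rw [nrm, h, Real.mul_rpow (Real.rpow_nonneg (abs_nonneg _) _) (sum_nonneg' hw u), one_div,
    Real.rpow_rpow_inv (abs_nonneg _) (by linarith)]
  rw [nrm, one_div]

omit [NormedSpace ℝ X] in
lemma nrm_add_le (hp : 1 ≤ p) (hw : ∀ k, 0 ≤ w k) (u v : Fin n → X) :
    nrm p w (u + v) ≤ nrm p w u + nrm p w v := by
  have e : ∀ (a : Fin n → X) k, ((w k) ^ (1 / p) * ‖a k‖) ^ p = w k * ‖a k‖ ^ p := fun a k => by
    rw [Real.mul_rpow (Real.rpow_nonneg (hw k) _) (norm_nonneg _), one_div,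
      Real.rpow_inv_rpow (hw k) (by linarith)]
  have hmink := Real.Lp_add_le_of_nonneg (s := Finset.univ) hp
    (f := fun k => (w k) ^ (1 / p) * ‖u k‖) (g := fun k => (w k) ^ (1 / p) * ‖v k‖)
    (fun k _ => mul_nonneg (Real.rpow_nonneg (hw k) _) (norm_nonneg _))
    (fun k _ => mul_nonneg (Real.rpow_nonneg (hw k) _) (norm_nonneg _))
  simp only [e] at hmink
  refine le_trans ?_ hmink
  refine Real.rpow_le_rpow (sum_nonneg' hw _) (Finset.sum_le_sum fun k _ => ?_) (by positivity)
  rw [← e (u + v) k, ← mul_add]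
  exact Real.rpow_le_rpow (mul_nonneg (Real.rpow_nonneg (hw k) _) (norm_nonneg _))
    (mul_le_mul_of_nonneg_left (norm_add_le _ _) (Real.rpow_nonneg (hw k) _)) (by linarith)

omit [NormedSpace ℝ X] in
lemma nrm_le_one (hp : 1 ≤ p) (hw : ∀ k, 0 ≤ w k) (h1 : (∑ k, w k) = 1) (u : Fin n → X)
    (hu : ∀ k, ‖u k‖ ≤ 1) : nrm p w u ≤ 1 := by
  refine Real.rpow_le_one (sum_nonneg' hw u) ?_ (by positivity)
  calc ∑ k, w k * ‖u k‖ ^ p ≤ ∑ k, w k * 1 := Finset.sum_le_sum fun k _ =>
        mul_le_mul_of_nonneg_left (Real.rpow_le_one (norm_nonneg _) (hu k) (by linarith)) (hw k)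
    _ = 1 := by simpa using h1

lemma nrm_sum_le (hp : 1 ≤ p) (hw : ∀ k, 0 ≤ w k) {ι : Type*} (s : Finset ι)
    (f : ι → Fin n → X) : nrm p w (∑ i ∈ s, f i) ≤ ∑ i ∈ s, nrm p w (f i) := by
  refine Finset.le_sum_of_subadditive _ ?_ (nrm_add_le hp hw) s f
  have := nrm_smul hp hw 0 (0 : Fin n → X)
  simpa using this.le

end Lp

end SpreadModel

open SpreadModel Filter Topology

variable {X : Type*} [NormedAddCommGroup X] [NormedSpace ℝ X]

theorem exists_spreadNorm (p K γ : ℝ) (hp : 1 ≤ p) (hγ : 0 < γ)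
    (hW : HasWitness X p γ) (hMT : MTIneq (fun x : X => ‖x‖) p K) :
    ∃ (N : Seminorm ℝ (ℕ →₀ ℝ)) (C : ℝ),
      IsSpreadNorm N C ∧ MTIneq (fun c => N c) p K := by
  classical
  choose n w v ψ hw hw1 hv hψ hgap using hW
  -- the norm before the limit
  let V : ∀ (_ : Bool) (q : ℕ × (ℕ → ℕ)), (ℕ →₀ ℝ) → Fin (n q.1) → X := fun b q c =>
    Finsupp.linearCombination ℝ (fun i => v q.1 b (q.2 i)) c
  let Nq : Bool → ℕ × (ℕ → ℕ) → (ℕ →₀ ℝ) → ℝ := fun b q c => nrm p (w q.1) (V b q c)
  have hNq : ∀ b q c, |Nq b q c| ≤ ∑ i ∈ c.support, |c i| := by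
    intro b q c
    rw [abs_of_nonneg (nrm_nonneg (hw _) _)]
    simp only [V, Finsupp.linearCombination_apply, Finsupp.sum]
    refine (nrm_sum_le hp (hw _) _ _).trans (Finset.sum_le_sum fun i _ => ?_)
    rw [nrm_smul hp (hw _)]
    exact mul_le_of_le_one_right (abs_nonneg _) (nrm_le_one hp (hw _) (hw1 _) _ (hv _ _ _))
  -- matrix entries before the limit
  let Mq : Bool → ℕ → ℕ → ℕ × (ℕ → ℕ) → ℝ := fun b a c q =>
    ψ q.1 b (q.2 a) (v q.1 b (q.2 c))
  have hMq : ∀ b a c q, |Mq b a c q| ≤ 1 := fun b a c q =>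
    (hψ _ _ _ _).trans (nrm_le_one hp (hw _) (hw1 _) _ (hv _ _ _))
  have tM : ∀ b a c, Tendsto (Mq b a c) (Ω : Filter (ℕ × (ℕ → ℕ))) (𝓝 (ulim Ω (Mq b a c))) :=
    fun b a c => tendsto_ulim Ω (hMq b a c)
  have hD : γ ≤ |(ulim Ω (Mq true 1 0) - ulim Ω (Mq true 0 1)) -
      (ulim Ω (Mq false 1 0) - ulim Ω (Mq false 0 1))| := by
    refine ge_of_tendsto (((tM true 1 0).sub (tM true 0 1)).sub
      ((tM false 1 0).sub (tM false 0 1))).abs ?_
    filter_upwards [eventually_lt (show 0 < 1 by norm_num)] with q hq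
    exact hgap q.1 (q.2 0) (q.2 1) hq.1 hq.2
  obtain ⟨b, hb⟩ : ∃ b, γ / 2 ≤ |ulim Ω (Mq b 1 0) - ulim Ω (Mq b 0 1)| := by
    by_contra hc
    push Not at hc
    have h1 := hc true
    have h2 := hc false
    have h3 := abs_sub (ulim Ω (Mq true 1 0) - ulim Ω (Mq true 0 1))
      (ulim Ω (Mq false 1 0) - ulim Ω (Mq false 0 1))
    linarith
  set A := ulim Ω (Mq b 1 0) with hA
  set B := ulim Ω (Mq b 0 1) with hB
  have tN : ∀ c, Tendsto (fun q => Nq b q c) (Ω : Filter (ℕ × (ℕ → ℕ)))
      (𝓝 (ulim Ω fun q => Nq b q c)) := fun c => tendsto_ulim Ω fun q => hNq b q c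
  let N : Seminorm ℝ (ℕ →₀ ℝ) := Seminorm.of (fun c => ulim Ω fun q => Nq b q c)
    (fun c d => le_of_tendsto_of_tendsto' (tN (c + d)) ((tN c).add (tN d)) fun q => by
      simp only [Nq, V, map_add]
      exact nrm_add_le hp (hw _) _ _)
    (fun r c => tendsto_nhds_unique (tN (r • c)) (by
      simp only [Nq, V, map_smul, nrm_smul hp (hw _), Real.norm_eq_abs]
      exact (tN c).const_mul |r|))
  have hspread : ∀ φ : ℕ → ℕ, StrictMono φ → ∀ c, N (c.mapDomain φ) = N c := by
    intro φ hφ c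
    obtain ⟨m, hm⟩ : ∃ m, ∀ i ∈ c.support, i < m :=
      ⟨c.support.sup id + 1, fun i hi => Nat.lt_succ_of_le (Finset.le_sup (f := id) hi)⟩
    let g : ℕ → (Fin m → ℕ) → ℝ := fun L y => nrm p (w L)
      (Finsupp.linearCombination ℝ (fun i => v L b (if h : i < m then y ⟨i, h⟩ else 0)) c)
    have key : ∀ θ : ℕ → ℕ, ∀ q : ℕ × (ℕ → ℕ),
        Nq b q (c.mapDomain θ) = g q.1 fun l => q.2 (θ l) := by
      intro θ q
      simp only [Nq, V, g, Finsupp.linearCombination_mapDomain]
      congr 1
      simp only [Finsupp.linearCombination_apply]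
      refine Finset.sum_congr rfl fun i hi => ?_
      simp [hm i hi]
    show ulim Ω (fun q => Nq b q (c.mapDomain φ)) = ulim Ω fun q => Nq b q c
    conv_rhs => rw [← Finsupp.mapDomain_id (v := c)]
    simp only [key]
    exact ulim_shift g φ id hφ strictMono_id
  refine ⟨N, max 1 (4 / γ), ⟨le_max_left _ _, fun i => ?_, hspread, fun c j => ?_⟩, ?_⟩
  · refine le_of_tendsto' (tN _) fun q => ?_
    simp only [Nq, V, Finsupp.linearCombination_single, one_smul]
    exact nrm_le_one hp (hw _) (hw1 _) _ (hv _ _ _)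
  · -- insert the functional between the coordinates of a spread copy
    have hpair : ∀ a d : ℕ, a < d → ulim Ω (Mq b d a) = A ∧ ulim Ω (Mq b a d) = B := by
      intro a d had
      have hθ : StrictMono fun i : ℕ => if i = 0 then a else d + i - 1 := by
        intro i k hik
        simp only
        split_ifs <;> omega
      constructor
      · have := ulim_shift (m := 2) (fun L y => ψ L b (y 1) (v L b (y 0)))
          (fun i : ℕ => if i = 0 then a else d + i - 1) id hθ strictMono_id
        simpa [Mq, hA] using this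
      · have := ulim_shift (m := 2) (fun L y => ψ L b (y 0) (v L b (y 1)))
          (fun i : ℕ => if i = 0 then a else d + i - 1) id hθ strictMono_id
        simpa [Mq, hB] using this
    have htest : ∀ k : ℕ,
        |∑ l ∈ c.support, c l * (if l < k then A else B)| ≤ N c := by
      intro k
      have hmono : StrictMono fun l : ℕ => 2 * l + 1 := fun a d h => by simp only; omega
      rw [← hspread _ hmono c]
      have t : Tendsto (fun q => ∑ l ∈ c.support, c l * Mq b (2 * k) (2 * l + 1) q)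
          (Ω : Filter (ℕ × (ℕ → ℕ))) (𝓝 (∑ l ∈ c.support, c l * (if l < k then A else B))) := by
        refine tendsto_finsetSum _ fun l _ => Tendsto.const_mul _ ?_
        by_cases hl : l < k
        · rw [if_pos hl, ← (hpair (2 * l + 1) (2 * k) (by omega)).1]
          exact tM b _ _
        · rw [if_neg hl, ← (hpair (2 * k) (2 * l + 1) (by omega)).2]
          exact tM b _ _
      refine le_of_tendsto_of_tendsto' t.abs (tN _) fun q => ?_
      refine le_trans (le_of_eq ?_) (hψ q.1 b (q.2 (2 * k)) _)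
      have e : V b q (c.mapDomain fun l => 2 * l + 1) =
          Finsupp.linearCombination ℝ (fun l => v q.1 b (q.2 (2 * l + 1))) c :=
        Finsupp.linearCombination_mapDomain (R := ℝ) _ c
      rw [e]
      simp only [Finsupp.linearCombination_apply, Finsupp.sum, map_sum, map_smul, smul_eq_mul, Mq]
    set S := ∑ l ∈ c.support, c l with hS
    set P := ∑ i ∈ Finset.range j, c i with hP
    have hsplit : ∑ l ∈ c.support, c l * (if l < j then A else B) = (A - B) * P + B * S := by
      have e : ∑ l ∈ c.support, (if l < j then c l else 0) = P := by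
        rw [hP, ← Finset.sum_filter]
        refine Finset.sum_subset (fun i hi => Finset.mem_range.2 (Finset.mem_filter.1 hi).2) fun i hi hni => ?_
        simp only [Finset.mem_range] at hi
        simpa [hi] using hni
      rw [← e, hS, Finset.mul_sum, Finset.mul_sum, ← Finset.sum_add_distrib]
      refine Finset.sum_congr rfl fun l _ => ?_
      split_ifs <;> ring
    have hj := htest j
    rw [hsplit] at hj
    have hB0 : |B * S| ≤ N c := by
      have := htest 0
      rw [hS, mul_comm, Finset.sum_mul]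
      simpa using this
    have hAP : |A - B| * |P| ≤ 2 * N c := by
      rw [← abs_mul]
      have := abs_sub ((A - B) * P + B * S) (B * S)
      rw [add_sub_cancel_right] at this
      linarith
    have hP' : γ / 2 * |P| ≤ 2 * N c :=
      (mul_le_mul_of_nonneg_right hb (abs_nonneg P)).trans hAP
    have hPC : |P| ≤ 4 / γ * N c := by
      rw [div_mul_eq_mul_div, le_div_iff₀ hγ]
      linarith
    exact hPC.trans (mul_le_mul_of_nonneg_right (le_max_right _ _) (apply_nonneg N c))
  · intro S hS hS' π P hπ hπ1 hP hP1 hrev f t ht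
    have hp0 : 0 ≤ p := by linarith
    have tl : Tendsto (fun q => ∑ i, ∑ k, π i * (P ^ t) i k * Nq b q (f k - f i) ^ p)
        (Ω : Filter (ℕ × (ℕ → ℕ))) (𝓝 (∑ i, ∑ k, π i * (P ^ t) i k * N (f k - f i) ^ p)) :=
      tendsto_finsetSum _ fun i _ => tendsto_finsetSum _ fun k _ =>
        ((tN _).rpow_const (Or.inr hp0)).const_mul _
    have tr : Tendsto (fun q => K ^ p * t * ∑ i, ∑ k, π i * P i k * Nq b q (f k - f i) ^ p)
        (Ω : Filter (ℕ × (ℕ → ℕ)))
        (𝓝 (K ^ p * t * ∑ i, ∑ k, π i * P i k * N (f k - f i) ^ p)) :=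
      (tendsto_finsetSum _ fun i _ => tendsto_finsetSum _ fun k _ =>
        ((tN _).rpow_const (Or.inr hp0)).const_mul _).const_mul _
    refine le_of_tendsto_of_tendsto' tl tr fun q => ?_
    have swap : ∀ Q : Matrix S S ℝ, ∑ i, ∑ k, π i * Q i k * Nq b q (f k - f i) ^ p =
        ∑ r, w q.1 r * ∑ i, ∑ k, π i * Q i k * ‖V b q (f k) r - V b q (f i) r‖ ^ p := by
      intro Q
      simp only [Nq, nrm_rpow hp (hw _), Finset.mul_sum, V, map_sub, Pi.sub_apply]
      rw [Finset.sum_comm (s := Finset.univ (α := Fin (n q.1)))]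
      refine Finset.sum_congr rfl fun i _ => ?_
      rw [Finset.sum_comm (s := Finset.univ (α := Fin (n q.1)))]
      exact Finset.sum_congr rfl fun k _ => Finset.sum_congr rfl fun r _ => by ring
    rw [swap, swap, Finset.mul_sum]
    refine Finset.sum_le_sum fun r _ => ?_
    calc w q.1 r * _ ≤ w q.1 r *
          (K ^ p * t * ∑ i, ∑ k, π i * P i k * ‖V b q (f k) r - V b q (f i) r‖ ^ p) :=
        mul_le_mul_of_nonneg_left
          (hMT S hS hS' π P hπ hπ1 hP hP1 hrev (fun i => V b q (f i) r) t ht) (hw _ r)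
      _ = _ := by ring

end Vale.Agent.P125
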