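import Mathlib
import Vale.Agent.P125.Defs

/-!
P125, module 3a: jump trees with many steps give witnesses in `ℓ_p(w; X)`.

For a jump tree, over the set `Ω` of its branches (with their probabilities), `x u` is the `u`-th
value on the branch (frozen at the leaf), `f u` norms the `u`-th step and `g u` is the conditional
expectation of `f u` given the first `u` steps. Everything needed is proved by induction on the
tree.
-/

namespace Vale.Agent.P125

open Finset

section Pairing

variable {E F : Type*} [NormedAddCommGroup E] [NormedSpace ℝ E]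
  [NormedAddCommGroup F] [NormedSpace ℝ F]

/-- `B` is a contractive pairing in which `F` half-norms `E`. -/
def IsNorming (B : E →ₗ[ℝ] F →ₗ[ℝ] ℝ) : Prop :=
  (∀ v f, |B v f| ≤ ‖v‖ * ‖f‖) ∧ ∀ v, ∃ f, ‖f‖ ≤ 1 ∧ ‖v‖ / 2 ≤ B v f

/-- The branch data of a tree. -/
structure BranchData (B : E →ₗ[ℝ] F →ₗ[ℝ] ℝ) (ε : ℝ) (T : JTree E)
    (Ω : Type) [Fintype Ω] where
  /-- probabilities of the branches -/
  w : Ω → ℝ
  /-- values along a branch -/
  x : ℕ → Ω → E
  /-- norming functionals of the steps -/
  f : ℕ → Ω → F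
  /-- their conditional expectations -/
  g : ℕ → Ω → F
  w_nonneg : ∀ k, 0 ≤ w k
  w_sum : ∑ k, w k = 1
  x_le : ∀ u k, ‖x u k‖ ≤ 1
  f_le : ∀ u k, ‖f u k‖ ≤ 1
  g_le : ∀ u k, ‖g u k‖ ≤ 1
  x_zero : ∀ k, x 0 k = T.val
  mart : ∀ u, ∑ k, w k • x u k = T.val
  mean_eq : ∀ j, ∑ k, w k • f j k = ∑ k, w k • g j k
  mid : ∀ i j, i < j → ∑ k, w k * B (x i k) (f j k) = ∑ k, w k * B (x i k) (g j k)
  gap : ∀ i j, i < j → ε / 2 * tailP (i + 1) T ≤
    ∑ k, w k * B (x j k) (f i k) - ∑ k, w k * B (x j k) (g i k)

theorem norm_sum_smul_le_one {G : Type*} [NormedAddCommGroup G] [NormedSpace ℝ G] {α : Type*}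
    [Fintype α] (w : α → ℝ) (v : α → G) (h0 : ∀ k, 0 ≤ w k) (h1 : ∑ k, w k = 1)
    (hv : ∀ k, ‖v k‖ ≤ 1) : ‖∑ k, w k • v k‖ ≤ 1 := by
  calc ‖∑ k, w k • v k‖ ≤ ∑ k, ‖w k • v k‖ := norm_sum_le _ _
    _ ≤ ∑ k, w k := by
      refine sum_le_sum fun k _ => ?_
      rw [norm_smul, Real.norm_of_nonneg (h0 k)]
      exact (mul_le_mul_of_nonneg_left (hv k) (h0 k)).trans (mul_one _).le
    _ = 1 := h1

/-- Every jump tree has branch data. -/
theorem exists_branchData {B : E →ₗ[ℝ] F →ₗ[ℝ] ℝ} (hB : IsNorming B) {ε : ℝ}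
    (T : JTree E) (hT : IsJump ε T) :
    ∃ (Ω : Type) (_ : Fintype Ω), Nonempty (BranchData B ε T Ω) := by
  induction T with
  | leaf x =>
    refine ⟨Unit, inferInstance, ⟨{
      w := fun _ => 1, x := fun _ _ => x, f := fun _ _ => 0, g := fun _ _ => 0
      w_nonneg := fun _ => zero_le_one, w_sum := by simp, x_le := fun _ _ => hT
      f_le := fun _ _ => by simp, g_le := fun _ _ => by simp
      x_zero := fun _ => rfl, mart := fun _ => by simp [JTree.val]
      mean_eq := fun _ => rfl, mid := fun _ _ _ => rfl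
      gap := fun i j _ => by simp [tailP] }⟩⟩
  | node x n w c ih =>
    obtain ⟨hx, hw0, hw1, hbar, hspread, hc⟩ := hT
    choose Ω hΩ hd using fun a => ih a (hc a)
    let d := fun a => (hd a).some
    choose φ hφ1 hφ2 using fun a => hB.2 ((c a).val - x)
    let g₀ : F := ∑ a, w a • φ a
    let W : (Σ a, Ω a) → ℝ := fun k => w k.1 * (d k.1).w k.2
    have hW0 : ∀ k, 0 ≤ W k := fun k => mul_nonneg (hw0 _) ((d k.1).w_nonneg _)
    have hW1 : ∑ k, W k = 1 := by
      rw [Fintype.sum_sigma]
      simp only [W, ← mul_sum, (d _).w_sum, mul_one, hw1]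
    refine ⟨Σ a, Ω a, inferInstance, ⟨{
      w := W
      x := fun u k => match u with | 0 => x | u + 1 => (d k.1).x u k.2
      f := fun u k => match u with | 0 => φ k.1 | u + 1 => (d k.1).f u k.2
      g := fun u k => match u with | 0 => g₀ | u + 1 => (d k.1).g u k.2
      w_nonneg := hW0, w_sum := hW1
      x_le := fun u k => by
        cases u with
        | zero => exact hx
        | succ u => exact (d k.1).x_le u k.2
      f_le := fun u k => by
        cases u with
        | zero => exact hφ1 _
        | succ u => exact (d k.1).f_le u k.2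
      g_le := fun u k => by
        cases u with
        | zero => exact norm_sum_smul_le_one w φ hw0 hw1 hφ1
        | succ u => exact (d k.1).g_le u k.2
      x_zero := fun k => rfl
      mart := fun u => by
        cases u with
        | zero => simp only [← sum_smul, hW1, one_smul, JTree.val]
        | succ u =>
          rw [Fintype.sum_sigma]
          simp only [W, mul_smul, ← smul_sum, (d _).mart]
          exact hbar
      mean_eq := fun j => by
        cases j with
        | zero =>
          have h1 : ∑ k, W k • g₀ = g₀ := by rw [← sum_smul, hW1, one_smul]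
          rw [h1, Fintype.sum_sigma]
          simp only [W, mul_smul, ← smul_sum, ← sum_smul, (d _).w_sum, one_smul]
          rfl
        | succ j =>
          simp only [Fintype.sum_sigma, W, mul_smul, ← smul_sum, (d _).mean_eq]
      mid := fun i j hij => by
        cases j with
        | zero => exact absurd hij (Nat.not_lt_zero i)
        | succ j =>
          cases i with
          | zero =>
            have e := congrArg (B x) (show ∑ k, W k • (d k.1).f j k.2 = ∑ k, W k • (d k.1).g j k.2 by
              simp only [Fintype.sum_sigma, W, mul_smul, ← smul_sum, (d _).mean_eq])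
            simpa [map_sum, map_smul] using e
          | succ i =>
            simp only [Fintype.sum_sigma, W, mul_assoc, ← mul_sum]
            exact sum_congr rfl fun a _ => by rw [(d a).mid i j (Nat.lt_of_succ_lt_succ hij)]
      gap := fun i j hij => by
        cases j with
        | zero => exact absurd hij (Nat.not_lt_zero i)
        | succ j =>
          cases i with
          | zero =>
            have hf : ∑ k, W k * B ((d k.1).x j k.2) (φ k.1) = ∑ a, w a * B (c a).val (φ a) := by
              simp only [Fintype.sum_sigma, W, mul_assoc, ← mul_sum]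
              refine sum_congr rfl fun a _ => ?_
              rw [← (d a).mart j]
              simp [map_sum, map_smul, LinearMap.sum_apply]
            have hg : ∑ k, W k * B ((d k.1).x j k.2) g₀ = ∑ a, w a * B x (φ a) := by
              have e : ∑ k, W k • (d k.1).x j k.2 = x := by
                simp only [Fintype.sum_sigma, W, mul_smul, ← smul_sum, (d _).mart]
                exact hbar
              have := congrArg (fun v => B v g₀) e
              simp only [map_sum, map_smul, LinearMap.sum_apply, LinearMap.smul_apply,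
                smul_eq_mul] at this
              rw [this]
              simp [g₀, map_sum, map_smul]
            have ht : tailP 1 (JTree.node x n w c) = 1 := by simp [tailP, hw1]
            rw [ht, mul_one, hf, hg, ← sum_sub_distrib]
            calc ε / 2 ≤ (∑ a, w a * ‖(c a).val - x‖) / 2 := by linarith
              _ = ∑ a, w a * (‖(c a).val - x‖ / 2) := by
                rw [sum_div]; exact sum_congr rfl fun a _ => by ring
              _ ≤ ∑ a, (w a * B (c a).val (φ a) - w a * B x (φ a)) := by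
                refine sum_le_sum fun a _ => ?_
                rw [← mul_sub, ← LinearMap.sub_apply, ← map_sub]
                exact mul_le_mul_of_nonneg_left (hφ2 a) (hw0 a)
          | succ i =>
            simp only [tailP, Fintype.sum_sigma, W, mul_assoc, ← mul_sum, ← sum_sub_distrib,
              ← mul_sub]
            rw [mul_sum]
            refine sum_le_sum fun a _ => ?_
            rw [mul_left_comm]
            have hg := (d a).gap i j (Nat.lt_of_succ_lt_succ hij)
            rw [← sum_sub_distrib] at hg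
            simp only [← mul_sub] at hg
            exact mul_le_mul_of_nonneg_left hg (hw0 a)
      }⟩⟩

/-- Jump trees with many steps give, for every length, branch data with a uniform gap. -/
theorem exists_gap_data {B : E →ₗ[ℝ] F →ₗ[ℝ] ℝ} (hB : IsNorming B) (h : ¬ FewJumps E) :
    ∃ γ : ℝ, 0 < γ ∧ ∀ L : ℕ, ∃ (n : ℕ) (w : Fin n → ℝ) (x : ℕ → Fin n → E)
      (f g : ℕ → Fin n → F),
      (∀ k, 0 ≤ w k) ∧ (∑ k, w k) = 1 ∧ (∀ u k, ‖x u k‖ ≤ 1) ∧ (∀ u k, ‖f u k‖ ≤ 1) ∧
      (∀ u k, ‖g u k‖ ≤ 1) ∧
      ∀ i j : ℕ, i < j → j < L →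
        ∑ k, w k * B (x i k) (f j k) = ∑ k, w k * B (x i k) (g j k) ∧
        γ ≤ ∑ k, w k * B (x j k) (f i k) - ∑ k, w k * B (x j k) (g i k) := by
  simp only [FewJumps, not_forall, not_exists, not_le] at h
  obtain ⟨ε, hε, hT⟩ := h
  refine ⟨ε / 4, by positivity, fun L => ?_⟩
  obtain ⟨T, hjump, htail⟩ := hT L
  obtain ⟨Ω, hΩ, ⟨d⟩⟩ := exists_branchData hB T hjump
  let e := (Fintype.equivFin Ω).symm
  refine ⟨Fintype.card Ω, fun k => d.w (e k), fun u k => d.x u (e k), fun u k => d.f u (e k),
    fun u k => d.g u (e k), fun k => d.w_nonneg _, ?_, fun u k => d.x_le _ _,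
    fun u k => d.f_le _ _, fun u k => d.g_le _ _, fun i j hij hjL => ?_⟩
  · rw [e.sum_comp]; exact d.w_sum
  rw [e.sum_comp (fun k => d.w k * B (d.x i k) (d.f j k)),
    e.sum_comp (fun k => d.w k * B (d.x i k) (d.g j k)),
    e.sum_comp (fun k => d.w k * B (d.x j k) (d.f i k)),
    e.sum_comp (fun k => d.w k * B (d.x j k) (d.g i k))]
  refine ⟨d.mid i j hij, le_trans ?_ (d.gap i j hij)⟩
  have hmono : ∀ (a : ℕ) (S : JTree E), IsJump ε S →
      tailP (a + 1) S ≤ tailP a S := by
    intro a
    induction a with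
    | zero =>
      intro S hS
      cases S with
      | leaf y => simp [tailP]
      | node y n w c => simp [tailP, hS.2.2.1]
    | succ a ih =>
      intro S hS
      cases S with
      | leaf y => simp [tailP]
      | node y n w c =>
        simp only [tailP]
        exact sum_le_sum fun b _ => mul_le_mul_of_nonneg_left (ih _ (hS.2.2.2.2.2 b)) (hS.2.1 b)
  have hle : ∀ a b : ℕ, a ≤ b → tailP b T ≤ tailP a T := by
    intro a b hab
    induction b, hab using Nat.le_induction with
    | base => exact le_rfl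
    | succ b _ ih => exact (hmono b T hjump).trans ih
  nlinarith [hle (i + 1) L (by omega)]

end Pairing

variable {X : Type*} [NormedAddCommGroup X] [NormedSpace ℝ X]

omit [NormedSpace ℝ X] in
theorem weighted_le_mean {n : ℕ} {p : ℝ} (hp : 1 ≤ p) (w : Fin n → ℝ) (hw : ∀ k, 0 ≤ w k)
    (hw1 : ∑ k, w k = 1) (a : Fin n → ℝ) (u : Fin n → X) (ha : ∀ k, |a k| ≤ ‖u k‖) :
    |∑ k, w k * a k| ≤ (∑ k, w k * ‖u k‖ ^ p) ^ (1 / p) := by
  refine le_trans ((abs_sum_le_sum_abs _ _).trans (sum_le_sum fun k _ => ?_))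
    (Real.arith_mean_le_rpow_mean univ w (fun k => ‖u k‖) (fun k _ => hw k) hw1
      (fun k _ => norm_nonneg _) hp)
  rw [abs_mul, abs_of_nonneg (hw k)]
  exact mul_le_mul_of_nonneg_left (ha k) (hw k)

theorem hasWitness_of_not_fewJumps (p : ℝ) (hp : 1 ≤ p) (h : ¬ FewJumps X) :
    ∃ γ : ℝ, 0 < γ ∧ HasWitness X p γ := by
  let B : X →ₗ[ℝ] StrongDual ℝ X →ₗ[ℝ] ℝ :=
    LinearMap.mk₂ ℝ (fun v f => f v) (fun a b f => map_add f a b) (fun r a f => map_smul f r a)
      (fun _ _ _ => rfl) (fun _ _ _ => rfl)
  have hB : IsNorming B := by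
    refine ⟨fun v f => ?_, fun v => ?_⟩
    · rw [mul_comm]; exact f.le_opNorm v
    · obtain ⟨f, hf1, hf2⟩ := exists_dual_vector'' ℝ v
      refine ⟨f, hf1, ?_⟩
      show ‖v‖ / 2 ≤ f v
      rw [hf2]; simp [norm_nonneg]
  obtain ⟨γ, hγ, hd⟩ := exists_gap_data hB h
  refine ⟨γ, hγ, fun L => ?_⟩
  obtain ⟨n, w, x, f, g, hw, hw1, hx, hf, hg, hmat⟩ := hd L
  refine ⟨n, w, fun _ => x,
    fun b j => ∑ k, w k • ((if b then f j k else g j k).toLinearMap ∘ₗ LinearMap.proj k),
    hw, hw1, fun _ => hx, fun b j u => ?_, fun i j hij hjL => ?_⟩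
  · simp only [LinearMap.sum_apply, LinearMap.smul_apply, LinearMap.comp_apply,
      LinearMap.proj_apply, smul_eq_mul]
    refine weighted_le_mean hp w hw hw1 _ u fun k => ?_
    have hn : ‖(if b then f j k else g j k)‖ ≤ 1 := by split <;> simp [hf, hg]
    exact ((if b then f j k else g j k).le_opNorm (u k)).trans
      ((mul_le_mul_of_nonneg_right hn (norm_nonneg _)).trans (one_mul _).le)
  · obtain ⟨hm, hg'⟩ := hmat i j hij hjL
    change ∑ k, w k * f j k (x i k) = ∑ k, w k * g j k (x i k) at hm
    change γ ≤ ∑ k, w k * f i k (x j k) - ∑ k, w k * g i k (x j k) at hg'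
    simp only [LinearMap.sum_apply, LinearMap.smul_apply, LinearMap.comp_apply,
      LinearMap.proj_apply, smul_eq_mul, ContinuousLinearMap.coe_coe, if_true, Bool.false_eq_true,
      if_false]
    exact le_trans (by linarith) (neg_le_abs _)

theorem hasWitness_of_not_fewJumps_dual (p : ℝ) (hp : 1 ≤ p)
    (h : ¬ FewJumps (StrongDual ℝ X)) : ∃ γ : ℝ, 0 < γ ∧ HasWitness X p γ := by
  let B : StrongDual ℝ X →ₗ[ℝ] X →ₗ[ℝ] ℝ :=
    LinearMap.mk₂ ℝ (fun f v => f v) (fun _ _ _ => rfl) (fun _ _ _ => rfl)
      (fun f a b => map_add f a b) (fun r f a => map_smul f r a)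
  have hB : IsNorming B := by
    refine ⟨fun f v => f.le_opNorm v, fun f => ?_⟩
    rcases eq_or_ne f 0 with rfl | hf
    · exact ⟨0, by simp, by simp⟩
    obtain ⟨v, hv, hv'⟩ := f.exists_lt_apply_of_lt_opNorm
      (show ‖f‖ / 2 < ‖f‖ by linarith [norm_pos_iff.2 hf])
    rw [Real.norm_eq_abs] at hv'
    rcases le_total 0 (f v) with h0 | h0
    · refine ⟨v, hv.le, ?_⟩
      rw [abs_of_nonneg h0] at hv'; exact hv'.le
    · refine ⟨-v, by rw [norm_neg]; exact hv.le, ?_⟩
      rw [abs_of_nonpos h0] at hv'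
      show ‖f‖ / 2 ≤ f (-v)
      rw [map_neg]; exact hv'.le
  obtain ⟨γ, hγ, hd⟩ := exists_gap_data hB h
  refine ⟨γ, hγ, fun L => ?_⟩
  obtain ⟨n, w, x, f, g, hw, hw1, hx, hf, hg, hmat⟩ := hd L
  refine ⟨n, w, fun b => if b then f else g,
    fun _ j => ∑ k, w k • ((x j k).toLinearMap ∘ₗ LinearMap.proj k),
    hw, hw1, fun b i k => by cases b <;> simp [hf, hg], fun b j u => ?_, fun i j hij hjL => ?_⟩
  · simp only [LinearMap.sum_apply, LinearMap.smul_apply, LinearMap.comp_apply,
      LinearMap.proj_apply, smul_eq_mul]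
    refine weighted_le_mean hp w hw hw1 _ u fun k => ?_
    exact ((x j k).le_opNorm (u k)).trans
      ((mul_le_mul_of_nonneg_right (hx j k) (norm_nonneg _)).trans (one_mul _).le)
  · obtain ⟨hm, hg'⟩ := hmat i j hij hjL
    change ∑ k, w k * x i k (f j k) = ∑ k, w k * x i k (g j k) at hm
    change γ ≤ ∑ k, w k * x j k (f i k) - ∑ k, w k * x j k (g i k) at hg'
    simp only [LinearMap.sum_apply, LinearMap.smul_apply, LinearMap.comp_apply,
      LinearMap.proj_apply, smul_eq_mul, ContinuousLinearMap.coe_coe, if_true, Bool.false_eq_true,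
      if_false]
    exact le_trans (by linarith) (le_abs_self _)

end Vale.Agent.P125
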