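import Mathlib
import Vale.Agent.P125.NoSpread
import Vale.Agent.P125.SpreadModel
import Vale.Agent.P125.TreeWitness
import Vale.Agent.P125.Renorming

/-!
P125: nontrivial Markov type implies an equivalent uniformly smooth norm and an equivalent
uniformly convex norm.
-/

namespace Vale.Agent.P125

open Finset

variable {X : Type*} [NormedAddCommGroup X] [NormedSpace ℝ X]

/-- `X` has Markov type `p`: for some `K`, every stationary reversible chain with states
`Fin n`, stationary distribution `π` and transition matrix `P`, every `f` and every `t ≥ 1`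
satisfy `E ‖f Z_t - f Z_0‖ ^ p ≤ K ^ p * t * E ‖f Z_1 - f Z_0‖ ^ p`. -/
def MarkovType (X : Type*) [NormedAddCommGroup X] [NormedSpace ℝ X] (p : ℝ) : Prop :=
  ∃ K : ℝ, 0 ≤ K ∧ ∀ (n : ℕ) (π : Fin n → ℝ) (P : Matrix (Fin n) (Fin n) ℝ),
    (∀ i, 0 ≤ π i) → (∑ i, π i) = 1 → (∀ i j, 0 ≤ P i j) → (∀ i, ∑ j, P i j = 1) →
    (∀ i j, π i * P i j = π j * P j i) →
    ∀ (f : Fin n → X) (t : ℕ), 1 ≤ t →
      ∑ i, ∑ j, π i * (P ^ t) i j * ‖f j - f i‖ ^ p ≤
        K ^ p * t * ∑ i, ∑ j, π i * P i j * ‖f j - f i‖ ^ p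

theorem MarkovType.exists_mtIneq {p : ℝ} (h : MarkovType X p) :
    ∃ K : ℝ, 0 ≤ K ∧ MTIneq (fun x : X => ‖x‖) p K := by
  obtain ⟨K, hK, h⟩ := h
  refine ⟨K, hK, ?_⟩
  intro S _ _ π P h0 h1 hP0 hP1 hrev f t ht
  let e := Fintype.equivFin S
  have hsum : ∀ g : S → ℝ, ∑ i, g (e.symm i) = ∑ i, g i := fun g => e.symm.sum_comp g
  have hpow : ∀ i j, ((Matrix.reindexAlgEquiv ℝ ℝ e P) ^ t) i j = (P ^ t) (e.symm i) (e.symm j) := by
    intro i j
    rw [← map_pow]
    rfl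
  have key := h _ (fun i => π (e.symm i)) (Matrix.reindexAlgEquiv ℝ ℝ e P) (fun i => h0 _)
    ((hsum π).trans h1) (fun i j => hP0 _ _) (fun i => (hsum (fun j => P (e.symm i) j)).trans (hP1 _))
    (fun i j => hrev _ _) (fun i => f (e.symm i)) t ht
  simp only [hpow] at key
  have hd : ∀ g : S → S → ℝ, ∑ i, ∑ j, g (e.symm i) (e.symm j) = ∑ i, ∑ j, g i j := by
    intro g
    rw [← hsum (fun i => ∑ j, g i j)]
    exact Finset.sum_congr rfl (fun i _ => hsum (g (e.symm i)))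
  refine le_of_eq_of_le (hd (fun i j => π i * (P ^ t) i j * ‖f j - f i‖ ^ p)).symm
    (key.trans_eq ?_)
  congr 1
  exact hd (fun i j => π i * P i j * ‖f j - f i‖ ^ p)

theorem fewJumps_of_markovType {p : ℝ} (hp : 1 < p) (h : MarkovType X p) :
    FewJumps X ∧ FewJumps (StrongDual ℝ X) := by
  obtain ⟨K, hK, hMT⟩ := h.exists_mtIneq
  have key : ∀ γ : ℝ, 0 < γ → ¬ HasWitness X p γ := by
    intro γ hγ hW
    obtain ⟨N, C, hN, hNMT⟩ := exists_spreadNorm p K γ hp.le hγ hW hMT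
    exact no_spread hN p K hp hK hNMT
  constructor
  · by_contra hf
    obtain ⟨γ, hγ, hW⟩ := hasWitness_of_not_fewJumps p hp.le hf
    exact key γ hγ hW
  · by_contra hf
    obtain ⟨γ, hγ, hW⟩ := hasWitness_of_not_fewJumps_dual p hp.le hf
    exact key γ hγ hW

end Vale.Agent.P125
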